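import Vale.Agent.P088.R2.H932.EP.Kk
import Vale.Agent.P088.R2.H313.EP.MuE
import Vale.Agent.P088.R2.H86.Z.Wnp

/-!
# P088, stage 3, zone II: the literal margin `k`
-/

open Set Filter
open scoped ContDiff Topology Matrix

noncomputable section

namespace Vale.Agent.P088.R2.H942.Pk

open Vale.Agent.P088.LR Vale.Agent.P088.HY Vale.Agent.P088.R2.H31.EP
open Vale.Agent.P088.R2.H464.Cu (mid dif rq)

variable {n : ℕ}

/-- `μ'' = Am s^(-5/2)` for `s ≥ sz + 1`. -/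
def Am : ℝ := 3 / 2 * H313.Mu.dl 1

/-- The level from which `μ₂ ~ Am s^(-5/2)`. -/
def t0 (q : Cst) : ℝ := H313.Mu.sz q.M₀ + 1 + 87 / 20000 * Real.log q.M₀

/-- The smooth lower bound of `μ''`. -/
def Mv (q : Cst) (s : ℝ) : ℝ := H932.EP.mu2 Am 400 (t0 q) s

/-- The margin. -/
def kz (q : Cst) (d : Pk n) (z : VV n) : ℝ :=
  H932.EP.kk (1 / 10 ^ 9) (q.σ / q.R) (deriv (deriv d.Φ)) (H932.EP.mu2 Am 400 (t0 q)) (d.u q)
    (rq (gi d.s₁)) (fun z => d.l (mid z)) z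

/-- The margin in the fields. -/
def kE (q : Cst) (d : Pk n) (z : VV n) : ℝ :=
  16 * kz q d z / (Real.exp (d.u q z) * (d.wn q).a z ^ 2)

theorem kz_eq (q : Cst) (d : Pk n) (z : VV n) : kz q d z = 1 / 10 ^ 9 * (d.m q z *
    (d.Kf q z / (d.Kf q z + d.m q z) + Mv q (d.l (mid z)) + q.σ * q.R⁻¹)) := by
  have e : H932.EP.mm (d.u q) (rq (gi d.s₁)) z = d.m q z := by
    unfold H932.EP.mm Pk.m Pk.E Pk.r2 H31.EP.r2
    ring
  unfold kz H932.EP.kk H932.EP.kq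
  rw [e]
  rfl

end Vale.Agent.P088.R2.H942.Pk
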