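import Vale.Agent.P088.R2.H942.Pk.Al
import Vale.Agent.P088.R2.H942.Pk.Kz

/-!
# P088, stage 3, zone II: the correction of the level, numbers
-/

open Set Filter
open scoped ContDiff Topology Matrix

noncomputable section

namespace Vale.Agent.P088.R2.H942.Pk

open Vale.Agent.P088.LR Vale.Agent.P088.HY Vale.Agent.P088.R2.H464.Cu Vale.Agent.P088.R2.H31.EP
open Vale.Agent.P088.R2.H606.EP
open Vale.Agent.P088.R2.H313.EP (MuOk muD muG muG0 muD0)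
open Vale.Agent.P088.R2.H313.Mu (sz sw b1)

variable {n : ℕ} {q : Cst} {d : Pk n} {z w : VV n}

/-- The constant of the certificate. -/
def CZ (n : ℕ) : ℝ := 13568 * (n + 1) ^ 16

theorem CZ_ge (n : ℕ) : 13568 ≤ CZ n := by
  unfold CZ
  have h1 : (1 : ℝ) ≤ (n + 1) ^ 16 := one_le_pow₀ (by linarith [(Nat.cast_nonneg n : (0 : ℝ) ≤ n)])
  linarith

theorem Am_pos : 0 < Am := by
  unfold Am H313.Mu.dl
  have : (0 : ℝ) < (131 / 100) ^ (3 / 2 : ℝ) := Real.rpow_pos_of_pos (by norm_num) _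
  positivity

theorem Am_le : Am ≤ 3 := by
  unfold Am H313.Mu.dl
  have h1 : (131 / 100 : ℝ) ^ (3 / 2 : ℝ) ≤ (131 / 100 : ℝ) ^ (2 : ℝ) :=
    Real.rpow_le_rpow_of_exponent_le (by norm_num) (by norm_num)
  have h2 : (131 / 100 : ℝ) ^ (2 : ℝ) = (131 / 100) ^ 2 := Real.rpow_two _
  rw [h2] at h1
  linarith

/-- `K ≥ N^(9/10)` where `E ≤ N^(133/50)`. -/
theorem K_ge (h : PkOk q d) (m : H606.EP.Nm q) {u : ℝ} (hu : u ≤ d.uth q / 2)
    (h1 : deriv d.Φ u ≤ q.aC * Real.exp u) (h2 : Real.exp u ≤ deriv d.Φ u ^ (133 / 50 : ℝ)) :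
    deriv d.Φ u ^ (9 / 10 : ℝ) ≤ deriv (deriv d.Φ) u := by
  have hN := N_pos h m u
  have hE := Real.exp_pos u
  have hMN := N_ge h u
  have hM := m.M1
  have a0 := m.a0
  have h9 : deriv d.Φ u ^ (9 / 10 : ℝ) * deriv d.Φ u ^ (1 / 10 : ℝ) = deriv d.Φ u := by
    rw [← Real.rpow_add hN]; norm_num
  have h10 : 10 / 9 ≤ deriv d.Φ u ^ (1 / 10 : ℝ) :=
    m.M3.trans (Real.rpow_le_rpow (by linarith) hMN (by norm_num))
  have h11 : deriv d.Φ u ^ (9 / 10 : ℝ) ≤ 9 / 10 * deriv d.Φ u := by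
    have := Real.rpow_pos_of_pos hN (9 / 10)
    nlinarith
  have e1 := h.top.e1 u hu
  have e2 := h.top.e2 u hu
  rcases le_total (q.ν₁ * Real.exp u) (deriv d.Φ u) with h4 | h4
  · have h5 : deriv d.Φ u ≤ q.nm * Real.exp u := by
      have := m.a1
      have := m.a2
      nlinarith
    rw [e1] at h4 h5
    have h6 := h.ph.isΦ.p1 u h4 h5
    rw [← e1, ← e2] at h6
    rw [h6]
    exact h11
  · have h5 : Real.exp u ≤ 1 * deriv d.Φ u ^ (133 / 50 : ℝ) := by rwa [one_mul]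
    rw [e1] at h4 h5
    have h6 := h.ph.isΦ.p2 u h4 h5
    rw [← e1, ← e2] at h6
    have h7 : 0 ≤ 1 / q.aC * deriv d.Φ u ^ 2 / Real.exp u := by positivity
    linarith

/-- The numbers of the correction at the level of the midpoint. -/
structure MD (q : Cst) (d : Pk n) (z : VV n) (b : ℝ) : Prop where
  M0 : 0 < Mv q (d.l (mid z))
  M1 : Mv q (d.l (mid z)) ≤ 1
  b0 : 0 ≤ b
  bb : CZ n * b * (d.N q z + d.E q z) ≤ d.Kf q z / 64
  m1 : ∀ t : ℝ, 1 / 5 ≤ t → t ≤ 2 → 1 / 64 * Mv q (d.l (mid z)) - CZ n * b -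
    1 / 64 * (q.σ * q.R⁻¹) ≤ deriv (deriv (d.μc q)) (d.l (mid z)) * t
  mu1 : 512 * (n : ℝ) ^ 4 * |deriv (d.μc q) (d.l (mid z))| ≤ 1
  mu2 : |deriv (deriv (d.μc q)) (d.l (mid z))| ≤ 1

/-- Numbers of the constants. -/
structure MQ (n : ℕ) (q : Cst) : Prop where
  a1 : Real.exp 9 ≤ q.M₀
  a2 : 256 * Real.exp (5 / 2) * CZ n ≤ q.M₀ ^ (1 / 50 : ℝ)
  a3 : Real.exp (5 / 2) ≤ q.M₀ ^ (1 / 25 : ℝ)
  a4 : 512 * (n : ℝ) ^ 4 * (muG 1 * b1 1 q.M₀) ≤ 1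
  a5 : muG 2 * b1 1 q.M₀ ≤ 1
  a6 : 2 * sz q.M₀ + 5 / 2 ≤ 11 / 10 * q.R
  a7 : 0 < q.σ → 0 < b1 1 q.M₀ →
      1 / 64 * (Am * (q.R / 2) ^ (-(5 / 2) : ℝ)) + 2 * (muD 2 * (1 / q.R) ^ 2 * b1 1 q.M₀) ≤
        1 / 64 * (q.σ * q.R⁻¹)

theorem mq_ev7 : EvC fun q => 0 < q.σ → 0 < b1 1 q.M₀ →
      1 / 64 * (Am * (q.R / 2) ^ (-(5 / 2) : ℝ)) + 2 * (muD 2 * (1 / q.R) ^ 2 * b1 1 q.M₀) ≤
        1 / 64 * (q.σ * q.R⁻¹) := by
  refine EvC.at_R (fun q t => 0 < q.σ → 0 < b1 1 q.M₀ →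
      1 / 64 * (Am * (t / 2) ^ (-(5 / 2) : ℝ)) + 2 * (muD 2 * (1 / t) ^ 2 * b1 1 q.M₀) ≤
        1 / 64 * (q.σ * t⁻¹)) fun q => ?_
  by_cases hσ : 0 < q.σ ∧ 0 < b1 1 q.M₀
  · obtain ⟨hσ, hb⟩ := hσ
    have hD := muD0 2
    have hA := Am_pos
    filter_upwards [eventually_ge_atTop 2,
      eventually_ge_atTop ((Am / 16 + 2 * (muD 2 * b1 1 q.M₀)) * 64 / q.σ)] with t h1 h2 _ _
    have ht : 0 < t := by linarith
    rw [div_le_iff₀ hσ] at h2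
    have k1 : (t / 2) ^ (-(5 / 2) : ℝ) ≤ 4 * (1 / t) ^ 2 := by
      calc (t / 2) ^ (-(5 / 2) : ℝ) ≤ (t / 2) ^ (-2 : ℝ) :=
            Real.rpow_le_rpow_of_exponent_le (by linarith) (by norm_num)
        _ = 4 * (1 / t) ^ 2 := by
            rw [show (-2 : ℝ) = ((-2 : ℤ) : ℝ) by norm_num, Real.rpow_intCast]
            rw [zpow_neg, zpow_ofNat]
            field_simp
            norm_num
    have k2 : 1 / 64 * (q.σ * t⁻¹) = (q.σ * t / 64) * (1 / t) ^ 2 := by field_simp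
    have k3 : Am * (t / 2) ^ (-(5 / 2) : ℝ) ≤ Am * (4 * (1 / t) ^ 2) :=
      mul_le_mul_of_nonneg_left k1 hA.le
    rw [k2]
    calc 1 / 64 * (Am * (t / 2) ^ (-(5 / 2) : ℝ)) + 2 * (muD 2 * (1 / t) ^ 2 * b1 1 q.M₀) ≤
          1 / 64 * (Am * (4 * (1 / t) ^ 2)) + 2 * (muD 2 * (1 / t) ^ 2 * b1 1 q.M₀) := by
            linarith
      _ = (Am / 16 + 2 * (muD 2 * b1 1 q.M₀)) * (1 / t) ^ 2 := by ring
      _ ≤ _ := mul_le_mul_of_nonneg_right (by linarith) (by positivity)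
  · exact Eventually.of_forall fun t h1 h2 => absurd ⟨h1, h2⟩ hσ

theorem mq_ev (n : ℕ) : EvC fun q => MQ n q := by
  have a1 : EvC fun q => Real.exp 9 ≤ q.M₀ ∧
      256 * Real.exp (5 / 2) * CZ n ≤ q.M₀ ^ (1 / 50 : ℝ) ∧
      Real.exp (5 / 2) ≤ q.M₀ ^ (1 / 25 : ℝ) :=
    EvC.at_M₀ (fun _ t => Real.exp 9 ≤ t ∧ 256 * Real.exp (5 / 2) * CZ n ≤ t ^ (1 / 50 : ℝ) ∧
      Real.exp (5 / 2) ≤ t ^ (1 / 25 : ℝ)) fun _ => by
      filter_upwards [eventually_ge_atTop (Real.exp 9),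
        (tendsto_rpow_atTop (by norm_num : (0 : ℝ) < 1 / 50)).eventually_ge_atTop
          (256 * Real.exp (5 / 2) * CZ n),
        (tendsto_rpow_atTop (by norm_num : (0 : ℝ) < 1 / 25)).eventually_ge_atTop
          (Real.exp (5 / 2))] with t h1 h2 h3 using ⟨h1, h2, h3⟩
  have a2 : EvC fun q => 512 * (n : ℝ) ^ 4 * (muG 1 * b1 1 q.M₀) ≤ 1 ∧ muG 2 * b1 1 q.M₀ ≤ 1 := by
    refine EvC.at_M₀ (fun _ t => 512 * (n : ℝ) ^ 4 * (muG 1 * b1 1 t) ≤ 1 ∧ muG 2 * b1 1 t ≤ 1)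
      fun _ => ?_
    have g1 := muG0 1
    have g2 := muG0 2
    obtain ⟨M1, h1⟩ := H313.Mu.b1_small 1 (η := 1 / ((512 * (n : ℝ) ^ 4 + 1) * muG 1))
      (by positivity)
    obtain ⟨M2, h2⟩ := H313.Mu.b1_small 1 (η := 1 / muG 2) (by positivity)
    filter_upwards [eventually_ge_atTop M1, eventually_ge_atTop M2,
      eventually_ge_atTop (Real.exp 1)] with t t1 t2 t3
    have k1 := h1 t t1
    have k2 := h2 t t2
    have k3 := H313.Mu.b1_pos one_pos t3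
    rw [le_div_iff₀ (by positivity)] at k1 k2
    refine ⟨?_, by linarith⟩
    have : 0 ≤ b1 1 t * muG 1 := by positivity
    linarith
  have a3 : EvC fun q => 2 * sz q.M₀ + 5 / 2 ≤ 11 / 10 * q.R :=
    EvC.at_R (fun q t => 2 * sz q.M₀ + 5 / 2 ≤ 11 / 10 * t) fun q => by
      filter_upwards [eventually_ge_atTop (2 * sz q.M₀ + 5 / 2), eventually_ge_atTop 0] with t h1 h2
      linarith
  refine ((a1.and a2).and (a3.and mq_ev7)).mono ?_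
  rintro q ⟨⟨⟨a1, a2, a3⟩, a4, a5⟩, a6, a7⟩
  exact ⟨a1, a2, a3, a4, a5, a6, a7⟩

section
variable (h : PkOk q d) (m : Lm n q) (A : Al q d z) (Q : MQ n q) (k : MuOk q d)
include h m A Q k

omit k in
/-- The level is large. -/
theorem s_ge : 4 ≤ d.l (mid z) := by
  have hM0 : 0 < q.M₀ := by linarith [m.M1]
  have um := abs_le.1 A.L.um
  have hNE : d.N q z ≤ d.E q z := by
    have := m.a1
    have := A.NE
    have : 0 < d.E q z := Real.exp_pos _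
    nlinarith
  have hM9 : 9 ≤ Real.log q.M₀ := by
    rw [Real.le_log_iff_exp_le hM0]; exact Q.a1
  have h1 : Real.log q.M₀ ≤ d.u q z := by
    rw [Real.log_le_iff_le_exp hM0]
    exact A.N0.trans hNE
  linarith

omit h Q k in
theorem NE_le : d.N q z ≤ d.E q z := by
  have := m.a1
  have := A.NE
  have : 0 < d.E q z := Real.exp_pos _
  nlinarith

omit k in
theorem Mv_le : 0 < Mv q (d.l (mid z)) ∧
    Mv q (d.l (mid z)) ≤ Am * d.l (mid z) ^ (-(5 / 2) : ℝ) ∧ Mv q (d.l (mid z)) ≤ 1 := by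
  have hs4 := s_ge h m A Q
  have hs0 : 0 < d.l (mid z) := by linarith
  have hA := Am_pos
  have hMl : Mv q (d.l (mid z)) ≤ Am * d.l (mid z) ^ (-(5 / 2) : ℝ) := H932.EP.mu2_le hA hs0
  refine ⟨H932.EP.mu2_pos hA hs0.le, hMl, hMl.trans ?_⟩
  have h1 : d.l (mid z) ^ (-(5 / 2) : ℝ) ≤ d.l (mid z) ^ (-1 : ℝ) :=
    Real.rpow_le_rpow_of_exponent_le (by linarith) (by norm_num)
  have h2 : d.l (mid z) ^ (-1 : ℝ) ≤ 1 / 4 := by
    rw [Real.rpow_neg_one, inv_eq_one_div]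
    exact one_div_le_one_div_of_le (by norm_num) hs4
  have h3 : 0 ≤ d.l (mid z) ^ (-(5 / 2) : ℝ) := Real.rpow_nonneg hs0.le _
  calc Am * d.l (mid z) ^ (-(5 / 2) : ℝ) ≤ 3 * (1 / 4) :=
        mul_le_mul Am_le (h1.trans h2) h3 (by norm_num)
    _ ≤ 1 := by norm_num

omit h m A in
theorem mu_small (s : ℝ) : 512 * (n : ℝ) ^ 4 * |deriv (d.μc q) s| ≤ 1 ∧
    |deriv (deriv (d.μc q)) s| ≤ 1 := by
  constructor
  · have h1 := k.al 1 s
    rw [iteratedDeriv_one] at h1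
    exact (mul_le_mul_of_nonneg_left h1 (by positivity)).trans Q.a4
  · have h1 := k.al 2 s
    rw [H313.Mu.iter_two] at h1
    exact h1.trans Q.a5

/-- Low levels: `μ₂` against `K`. -/
theorem md_low (c1 : d.l (mid z) ≤ sz q.M₀ + 1) :
    CZ n * Mv q (d.l (mid z)) * (d.N q z + d.E q z) ≤ d.Kf q z / 128 := by
  have hM0 : 0 < q.M₀ := by linarith [m.M1]
  have um := abs_le.1 A.L.um
  have hNE := NE_le m A
  have hN0 : 0 < d.N q z := by linarith [A.N0]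
  have C0 : 0 < CZ n := by linarith [CZ_ge n]
  have e1 : sz q.M₀ = 131 / 100 * Real.log q.M₀ := rfl
  have u1 : d.u q z ≤ 262 / 100 * Real.log q.M₀ + 5 / 2 := by linarith
  have E1 : d.E q z ≤ Real.exp (5 / 2) * q.M₀ ^ (262 / 100 : ℝ) := by
    have : Real.exp (5 / 2) * q.M₀ ^ (262 / 100 : ℝ) =
        Real.exp (262 / 100 * Real.log q.M₀ + 5 / 2) := by
      rw [Real.exp_add, Real.rpow_def_of_pos hM0, mul_comm (Real.log q.M₀), mul_comm]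
    rw [this]
    exact Real.exp_le_exp.2 u1
  have M1 : Mv q (d.l (mid z)) ≤ q.M₀ ^ (-(174 / 100) : ℝ) := by
    refine (H932.EP.mu2_le2 Am_pos (by linarith [s_ge h m A Q])).trans ?_
    rw [Real.rpow_def_of_pos hM0, Real.exp_le_exp]
    unfold t0
    linarith
  have E2 : d.E q z ≤ d.N q z ^ (133 / 50 : ℝ) := by
    calc d.E q z ≤ Real.exp (5 / 2) * q.M₀ ^ (262 / 100 : ℝ) := E1
      _ ≤ q.M₀ ^ (1 / 25 : ℝ) * q.M₀ ^ (262 / 100 : ℝ) :=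
          mul_le_mul_of_nonneg_right Q.a3 (Real.rpow_nonneg hM0.le _)
      _ = q.M₀ ^ (133 / 50 : ℝ) := by rw [← Real.rpow_add hM0]; norm_num
      _ ≤ _ := Real.rpow_le_rpow hM0.le A.N0 (by norm_num)
  have hut : d.u q z ≤ d.uth q / 2 := by
    have := k.l0
    have := Q.a6
    unfold Pk.uth
    linarith
  have K1 : q.M₀ ^ (9 / 10 : ℝ) ≤ d.Kf q z :=
    (Real.rpow_le_rpow hM0.le A.N0 (by norm_num)).trans (K_ge h m.toNm hut A.NE E2)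
  have P1 : q.M₀ ^ (-(174 / 100) : ℝ) * q.M₀ ^ (262 / 100 : ℝ) = q.M₀ ^ (22 / 25 : ℝ) := by
    rw [← Real.rpow_add hM0]; norm_num
  have P2 : q.M₀ ^ (22 / 25 : ℝ) * q.M₀ ^ (1 / 50 : ℝ) = q.M₀ ^ (9 / 10 : ℝ) := by
    rw [← Real.rpow_add hM0]; norm_num
  have P3 : 0 < q.M₀ ^ (22 / 25 : ℝ) := Real.rpow_pos_of_pos hM0 _
  have P4 : 0 ≤ q.M₀ ^ (-(174 / 100) : ℝ) := Real.rpow_nonneg hM0.le _
  have P5 : 0 ≤ q.M₀ ^ (262 / 100 : ℝ) := Real.rpow_nonneg hM0.le _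
  have x1 : Mv q (d.l (mid z)) * (d.N q z + d.E q z) ≤
      q.M₀ ^ (-(174 / 100) : ℝ) * (2 * (Real.exp (5 / 2) * q.M₀ ^ (262 / 100 : ℝ))) :=
    mul_le_mul M1 (by linarith) (by linarith) P4
  have x2 : q.M₀ ^ (-(174 / 100) : ℝ) * (2 * (Real.exp (5 / 2) * q.M₀ ^ (262 / 100 : ℝ))) =
      2 * Real.exp (5 / 2) * q.M₀ ^ (22 / 25 : ℝ) := by
    rw [← P1]; ring
  calc CZ n * Mv q (d.l (mid z)) * (d.N q z + d.E q z) =
        CZ n * (Mv q (d.l (mid z)) * (d.N q z + d.E q z)) := by ring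
    _ ≤ CZ n * (2 * Real.exp (5 / 2) * q.M₀ ^ (22 / 25 : ℝ)) :=
        mul_le_mul_of_nonneg_left (x1.trans x2.le) C0.le
    _ = (256 * Real.exp (5 / 2) * CZ n) * q.M₀ ^ (22 / 25 : ℝ) / 128 := by ring
    _ ≤ q.M₀ ^ (1 / 50 : ℝ) * q.M₀ ^ (22 / 25 : ℝ) / 128 := by
        have := mul_le_mul_of_nonneg_right Q.a2 P3.le
        linarith
    _ = q.M₀ ^ (9 / 10 : ℝ) / 128 := by rw [mul_comm, P2]
    _ ≤ _ := by linarith

/-- Low levels. -/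
theorem md1 (c1 : d.l (mid z) ≤ sz q.M₀ + 1)
    (ng : -deriv (deriv (d.μc q)) (d.l (mid z)) * (d.N q z + d.E q z) ≤
      1 / (128 * CZ n) * d.Kf q z) : ∃ b, MD q d z b := by
  have C0 : 0 < CZ n := by linarith [CZ_ge n]
  have hC := CZ_ge n
  have low := md_low h m A Q k c1
  obtain ⟨M0, -, M1⟩ := Mv_le h m A Q
  obtain ⟨m1, m2⟩ := mu_small Q k (d.l (mid z))
  have hK : 0 < d.Kf q z := K_pos h _
  obtain ⟨p, hp⟩ : ∃ p, p = max (-deriv (deriv (d.μc q)) (d.l (mid z))) 0 := ⟨_, rfl⟩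
  have hp0 : 0 ≤ p := hp ▸ le_max_right _ _
  have hp1 : -deriv (deriv (d.μc q)) (d.l (mid z)) ≤ p := hp ▸ le_max_left _ _
  have h3 : p * (d.N q z + d.E q z) ≤ 1 / (128 * CZ n) * d.Kf q z := by
    rcases le_total (-deriv (deriv (d.μc q)) (d.l (mid z))) 0 with h4 | h4
    · rw [hp, max_eq_right h4, zero_mul]; positivity
    · rw [hp, max_eq_left h4]; exact ng
  have neg : CZ n * p * (d.N q z + d.E q z) ≤ d.Kf q z / 128 := by
    calc CZ n * p * (d.N q z + d.E q z) = CZ n * (p * (d.N q z + d.E q z)) := by ring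
      _ ≤ CZ n * (1 / (128 * CZ n) * d.Kf q z) := mul_le_mul_of_nonneg_left h3 C0.le
      _ = _ := by field_simp
  refine ⟨Mv q (d.l (mid z)) + p, ⟨M0, M1, by linarith, ?_, fun t t1 t2 => ?_, m1, m2⟩⟩
  · linarith
  · have h1 : 1 * Mv q (d.l (mid z)) ≤ CZ n * Mv q (d.l (mid z)) :=
      mul_le_mul_of_nonneg_right (by linarith) M0.le
    have h2 : 2 * p ≤ CZ n * p := mul_le_mul_of_nonneg_right (by linarith) hp0
    have h5 : 0 ≤ q.σ * q.R⁻¹ := by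
      have := m.σ0
      have := m.R1
      positivity
    have h4 : -(2 * p) ≤ deriv (deriv (d.μc q)) (d.l (mid z)) * t := by
      have h6 : -p * t ≤ deriv (deriv (d.μc q)) (d.l (mid z)) * t :=
        mul_le_mul_of_nonneg_right (by linarith) (by linarith)
      have h7 : p * t ≤ p * 2 := mul_le_mul_of_nonneg_left t2 hp0
      linarith
    linarith

/-- Middle levels. -/
theorem md2 (c1 : sz q.M₀ + 1 ≤ d.l (mid z)) (c2 : d.l (mid z) ≤ d.l₀ q + q.R / 2) :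
    MD q d z 0 := by
  obtain ⟨M0, Ml, M1⟩ := Mv_le h m A Q
  obtain ⟨m1, m2⟩ := mu_small Q k (d.l (mid z))
  have hK : 0 < d.Kf q z := K_pos h _
  have e1 : deriv (deriv (d.μc q)) (d.l (mid z)) = Am * d.l (mid z) ^ (-(5 / 2) : ℝ) := by
    have h1 := k.lo 2 (d.l (mid z)) c2
    rw [H313.Mu.iter_two, H313.Mu.iter_two] at h1
    rw [h1, k.isμ.p2 _ c1]
    rfl
  refine ⟨M0, M1, le_rfl, ?_, fun t t1 t2 => ?_, m1, m2⟩
  · rw [mul_zero, zero_mul]; positivity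
  · rw [e1]
    have h3 : 0 ≤ q.σ * q.R⁻¹ := by
      have := m.σ0
      have := m.R1
      positivity
    have h4 : Mv q (d.l (mid z)) * (1 / 5) ≤ Am * d.l (mid z) ^ (-(5 / 2) : ℝ) * t :=
      mul_le_mul Ml t1 (by norm_num) (M0.le.trans Ml)
    linarith

/-- High levels. -/
theorem md3 (c2 : d.l₀ q + q.R / 2 ≤ d.l (mid z)) : MD q d z 0 := by
  obtain ⟨M0, Ml, M1⟩ := Mv_le h m A Q
  obtain ⟨m1, m2⟩ := mu_small Q k (d.l (mid z))
  have hK : 0 < d.Kf q z := K_pos h _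
  have h1 := k.md 2 _ c2
  rw [H313.Mu.iter_two] at h1
  have h2 := Q.a7 m.σ0 k.b
  have hR : 0 < q.R := by linarith [m.R1]
  have h3 : d.l (mid z) ^ (-(5 / 2) : ℝ) ≤ (q.R / 2) ^ (-(5 / 2) : ℝ) :=
    Real.rpow_le_rpow_of_nonpos (by linarith) (by linarith [k.l0]) (by norm_num)
  refine ⟨M0, M1, le_rfl, ?_, fun t t1 t2 => ?_, m1, m2⟩
  · rw [mul_zero, zero_mul]; positivity
  · have h4 : Mv q (d.l (mid z)) ≤ Am * (q.R / 2) ^ (-(5 / 2) : ℝ) :=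
      Ml.trans (mul_le_mul_of_nonneg_left h3 Am_pos.le)
    have h6 := (abs_le.1 h1).1
    have h7 : 0 ≤ muD 2 * (1 / q.R) ^ 2 * b1 1 q.M₀ := (abs_nonneg _).trans h1
    have h8 : -(muD 2 * (1 / q.R) ^ 2 * b1 1 q.M₀) * t ≤
        deriv (deriv (d.μc q)) (d.l (mid z)) * t := mul_le_mul_of_nonneg_right h6 (by linarith)
    have h9 : muD 2 * (1 / q.R) ^ 2 * b1 1 q.M₀ * t ≤ muD 2 * (1 / q.R) ^ 2 * b1 1 q.M₀ * 2 :=
      mul_le_mul_of_nonneg_left t2 h7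
    linarith

end

/-- **The numbers of the correction.** -/
theorem md (n : ℕ) : EvC fun q => ∀ d : Pk n, PkOk q d → Lm n q → ∀ z, Al q d z →
    ∃ b, MD q d z b := by
  have a5 := H313.EP.EvC.muN (n := n) (fun _ => 1) (fun _ => 1 / (128 * CZ n)) (fun _ => rfl)
    fun _ => rfl
  refine ((mq_ev n).and (a5.and (H313.EP.EvC.muOk (n := n)))).mono ?_
  rintro q ⟨Q, a8, a9⟩ d h m z A
  have k := a9 d h
  have C0 : 0 < CZ n := by linarith [CZ_ge n]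
  rcases le_total (d.l (mid z)) (sz q.M₀ + 1) with c1 | c1
  · refine md1 h m A Q k c1 ?_
    have um := abs_le.1 A.L.um
    have h1 : -deriv (deriv (d.μc q)) (d.l (mid z)) * (d.N q z + 1 * d.E q z) ≤
        1 / (128 * CZ n) * d.Kf q z :=
      a8 d h (by norm_num) (by positivity) (d.l (mid z)) (d.u q z)
        (abs_le.2 ⟨by linarith, by linarith⟩) (by linarith [k.szR, k.l0])
    rwa [one_mul] at h1
  · rcases le_total (d.l (mid z)) (d.l₀ q + q.R / 2) with c2 | c2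
    · exact ⟨0, md2 h m A Q k c1 c2⟩
    · exact ⟨0, md3 h m A Q k c2⟩

end Vale.Agent.P088.R2.H942.Pk
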