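import Vale.Agent.P088.R2.H606.EP.Loc
import Vale.Agent.P088.R2.H509.EP.Side
import Vale.Agent.P088.R2.H313.EP.MuE

/-!
# P088, stage 3, zone II: the points of the leaves `z2a`, `z2b`
-/

open Set Filter
open scoped ContDiff Topology Matrix

noncomputable section

namespace Vale.Agent.P088.R2.H942.Pk

open Vale.Agent.P088.LR Vale.Agent.P088.HY Vale.Agent.P088.R2.H464.Cu Vale.Agent.P088.R2.H31.EP
open Vale.Agent.P088.R2.H606.EP
open Vale.Agent.P088.R2.H867.EP (Near Inf)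

variable {n : ℕ} {q : Cst} {d : Pk n} {z w : VV n}

/-- helper606's numbers. -/
theorem nm_ev : EvC fun q => H606.EP.Nm q := by
  have a1 : EvC fun q => q.η ≤ 1 / 1000 :=
    EvC.at_η (fun _ t => t ≤ 1 / 1000) fun _ => sml_le (by norm_num)
  have a2 : EvC fun q => 4 ≤ q.M₀ ∧ 2 ≤ q.M₀ ^ (3 / 50 : ℝ) ∧ 10 / 9 ≤ q.M₀ ^ (1 / 10 : ℝ) :=
    EvC.at_M₀ (fun _ t => 4 ≤ t ∧ 2 ≤ t ^ (3 / 50 : ℝ) ∧ 10 / 9 ≤ t ^ (1 / 10 : ℝ)) fun _ => by
      filter_upwards [eventually_ge_atTop 4,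
        (tendsto_rpow_atTop (by norm_num : (0 : ℝ) < 3 / 50)).eventually_ge_atTop 2,
        (tendsto_rpow_atTop (by norm_num : (0 : ℝ) < 1 / 10)).eventually_ge_atTop (10 / 9)]
        with t h1 h2 h3 using ⟨h1, h2, h3⟩
  have a3 : EvC fun q => q.aC ≤ 1 := EvC.at_aC (fun _ t => t ≤ 1) fun _ => sml_le one_pos
  have a4 : EvC fun q => 40 ≤ q.R ∧ 2 * Nb q ^ (13 / 5 : ℝ) < Real.exp (11 / 10 * q.R) :=
    EvC.at_R (fun q t => 40 ≤ t ∧ 2 * Nb q ^ (13 / 5 : ℝ) < Real.exp (11 / 10 * t)) fun q => by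
      have h1 : Tendsto (fun t : ℝ => Real.exp (11 / 10 * t)) atTop atTop :=
        Real.tendsto_exp_atTop.comp (tendsto_id.const_mul_atTop (by norm_num))
      filter_upwards [eventually_ge_atTop 40, h1.eventually_gt_atTop _] with t h1 h2 using ⟨h1, h2⟩
  refine (((EvC.pos.and EvC.good).and (a1.and a2)).and (a3.and a4)).mono ?_
  rintro q ⟨⟨⟨⟨⟨p1, p2, p3, p4, p5, p6, p7, p8, p9, p10⟩, ⟨q1, q2, q3, q4, q5, q6, q7⟩, r1, r2, r3,
    r4, r5, r6⟩, ⟨g1, g2, g3, g4, g5⟩, g6⟩, b1, b2, b3, b4⟩, b5, b6, b7⟩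
  exact ⟨r6, r5, r4, b1, b2, b3, b4, p5, b5, p3, g2, b7, b6⟩

/-- helper606's numbers. -/
theorem lm_ev (hn : 1 ≤ n) : EvC fun q => Lm n q := by
  have a1 : EvC fun q => q.σ ≤ 1 / 5000 :=
    EvC.at_σ (fun _ t => t ≤ 1 / 5000) fun _ => sml_le (by norm_num)
  have hc := cT_ge n
  have hn1 : (1 : ℝ) ≤ n := by exact_mod_cast hn
  have a2 : EvC fun q => q.ε ≤ 1 ∧ q.ε ≤ eI n ∧ 8 * (n : ℝ) * (cT n * q.ε) ≤ 1 :=
    EvC.at_ε (fun _ t => t ≤ 1 ∧ t ≤ eI n ∧ 8 * (n : ℝ) * (cT n * t) ≤ 1) fun _ => by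
      have h0 : 0 < 8 * (n : ℝ) * cT n := by positivity
      filter_upwards [sml_le one_pos, sml_le (cI_spec n).1,
        sml_le (a := 1 / (8 * (n : ℝ) * cT n)) (by positivity)] with t h1 h2 h3
      rw [le_div_iff₀ h0] at h3
      exact ⟨h1, h2, by linarith⟩
  have a3 : EvC fun q => q.c₀ ≤ 1 / 8 :=
    EvC.at_c₀ (fun _ t => t ≤ 1 / 8) fun _ => sml_le (by norm_num)
  have a4 : EvC fun q => 100 * (n : ℝ) ≤ q.R ∧ 8 * cSt ≤ q.R :=
    EvC.at_R (fun _ t => 100 * (n : ℝ) ≤ t ∧ 8 * cSt ≤ t) fun _ => by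
      filter_upwards [eventually_ge_atTop (100 * (n : ℝ)), eventually_ge_atTop (8 * cSt)]
        with t h1 h2 using ⟨h1, h2⟩
  have a5 : EvC fun q => 0 < q.c' → 2 ≤ q.r₁ * Real.exp (-1) := by
    have := EvC.at_M₀ (fun q t => 0 < q.c' → 2 ≤ q.c' * t / 2 * Real.exp (-1)) fun q => by
      by_cases h : 0 < q.c'
      · have h1 : Tendsto (fun t : ℝ => q.c' * t / 2 * Real.exp (-1)) atTop atTop := by
          have h2 := Real.exp_pos (-1)
          have e : (fun t : ℝ => q.c' * t / 2 * Real.exp (-1)) =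
              fun t => (q.c' / 2 * Real.exp (-1)) * t := by funext t; ring
          rw [e]
          exact tendsto_id.const_mul_atTop (by positivity)
        filter_upwards [h1.eventually_ge_atTop 2] with t ht _ using ht
      · exact Eventually.of_forall fun _ h1 => absurd h1 h
    exact this
  refine (((EvC.pos.and nm_ev).and (a1.and a2)).and ((a3.and a4).and a5)).mono ?_
  rintro q ⟨⟨⟨⟨⟨p1, p2, p3, p4, p5, p6, p7, p8, p9, p10⟩, ⟨q1, q2, q3, q4, q5, q6, q7⟩, r1, r2, r3,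
    r4, r5, r6⟩, g⟩, b1, b2, b3, b4⟩, ⟨b5, b6, b7⟩, b8⟩
  exact ⟨g, hn, q2, b1, p2, b6, b7, r3.le, b2, b3, b4, p6, b5, b8 q3⟩

/-- The points of `z2a`, `z2b`. -/
structure Al (q : Cst) (d : Pk n) (z : VV n) : Prop where
  L : Loc q d z
  rc : d.r2 z ≤ 4 * q.c₀ ^ 2
  r0 : 0 < d.r2 z
  N0 : q.M₀ ≤ d.N q z
  NE : d.N q z ≤ q.aC * d.E q z
  u0 : 0 ≤ d.u q z
  ut : d.u q z ≤ d.uta q
  NN : 4096 * d.N q z ^ 2 ≤ d.E q z * d.m q z

/-- **The points of `z2a`, `z2b`.** -/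
theorem al (hn : 1 ≤ n) : EvC fun q => ∀ d : Pk n, PkOk q d → ∀ z,
    d.ch q .z2a z ≠ 0 ∨ d.ch q .z2b z ≠ 0 → Al q d z := by
  have a1 : EvC fun q => 0 < q.cK → 8192 * q.aC ≤ q.cK :=
    EvC.at_aC (fun q t => 0 < q.cK → 8192 * t ≤ q.cK) fun q => by
      by_cases h : 0 < q.cK
      · filter_upwards [sml_le (a := q.cK / 8192) (by positivity)] with t ht _
        rw [le_div_iff₀ (by norm_num)] at ht
        linarith
      · exact Eventually.of_forall fun _ h1 => absurd h1 h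
  have a2 : EvC fun q => 8192 ≤ q.M₀ ^ (3 / 5 : ℝ) :=
    EvC.at_M₀ (fun _ t => 8192 ≤ t ^ (3 / 5 : ℝ)) fun _ =>
      (tendsto_rpow_atTop (by norm_num : (0 : ℝ) < 3 / 5)).eventually_ge_atTop 8192
  have a3 : EvC fun q => 1 ≤ q.CB → q.σ / (q.CB * q.R) ≤ 1 := by
    have := EvC.at_R (fun q t => 1 ≤ q.CB → q.σ / (q.CB * t) ≤ 1) fun q => by
      filter_upwards [eventually_ge_atTop |q.σ|, eventually_ge_atTop 1] with t h1 h2 h3
      have h4 : 0 < q.CB * t := by positivity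
      rw [div_le_one h4]
      have := le_abs_self q.σ
      nlinarith
    exact this
  refine (((EvC.pos.and (lm_ev hn)).and (a1.and a2)).and (a3.and (EvC.cpOk n))).mono ?_
  rintro q ⟨⟨⟨⟨⟨p1, p2, p3, p4, p5, p6, p7, p8, p9, p10⟩, ⟨q1, q2, q3, q4, q5, q6, q7⟩, r1, r2, r3,
    r4, r5, r6⟩, m⟩, b1, b2⟩, b3, b4⟩ d h z hz
  have hP := b4 d h
  have hR : 0 < q.R := by linarith
  have hM := m.M1
  have hN0 : q.M₀ ≤ d.N q z := N_ge h _
  have hN : 0 < d.N q z := by linarith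
  have hE : 0 < d.E q z := Real.exp_pos _
  have hK : 0 < d.Kf q z := K_pos h _
  have hrc : d.r2 z ≤ 4 * q.c₀ ^ 2 := by
    rcases hz with hz | hz
    · exact sd_r hz (Or.inr (Or.inr (Or.inl rfl))) hP
    · exact sd_r hz (Or.inr (Or.inr (Or.inr (Or.inr rfl)))) hP
  have hNE : d.N q z ≤ q.aC * d.E q z := by
    rcases hz with hz | hz
    · exact sd_e0 hz (Or.inr (Or.inr (Or.inl rfl))) (by decide) hP p5 hN
    · exact sd_e0 hz (Or.inr (Or.inr (Or.inr (Or.inr rfl)))) (by decide) hP p5 hN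
  have hu0 : 0 ≤ d.u q z := by
    have h1 : 1 ≤ d.E q z := by
      have := m.a1
      nlinarith
    unfold Pk.E at h1
    rwa [Real.one_le_exp_iff] at h1
  have hub : d.u q z ≤ d.utb q := by
    have h1 : d.u0 z < 2 * d.l₀ q + 93 / 20 * q.R := by
      rcases hz with hz | hz
      · exact (sd_fin hz (by unfold Inf; decide) q1 q2 hR).2.2
      · exact (sd_fin hz (by unfold Inf; decide) q1 q2 hR).2.2
    have h2 := (abs_le.1 (u_l h m z)).2
    have h3 := m.R2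
    have h4 : d.u0 z = d.l z.1 + d.l z.2 := rfl
    unfold Pk.utb
    linarith
  have hut : d.u q z ≤ d.uta q := le_uta h m.toNm hub hNE
  obtain ⟨hm0, hmm⟩ : 0 < d.m q z ∧ 4096 * d.N q z ^ 2 ≤ d.E q z * d.m q z := by
    rcases hz with hz | hz
    · have h1 := sd_z2a hz hP
      have h2 := sd_C hz (Or.inr rfl) hP hN
      have h3 := (slp_a h m.toNm hut hNE h2).2
      have h4 := b1 p4
      refine ⟨lt_of_lt_of_le (mul_pos p4 hK) h1, ?_⟩
      have h5 : 0 < d.E q z * d.Kf q z := mul_pos hE hK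
      calc 4096 * d.N q z ^ 2 ≤ 4096 * (2 * q.aC * (d.E q z * d.Kf q z)) :=
            mul_le_mul_of_nonneg_left h3 (by norm_num)
        _ = 8192 * q.aC * (d.E q z * d.Kf q z) := by ring
        _ ≤ q.cK * (d.E q z * d.Kf q z) := mul_le_mul_of_nonneg_right h4 h5.le
        _ = d.E q z * (q.cK * d.Kf q z) := by ring
        _ ≤ _ := mul_le_mul_of_nonneg_left h1 hE.le
    · have hr : 0 ≤ rq (gi d.s₁) z := by
        obtain ⟨-, -, ng⟩ := ten h m univ isOpen_univ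
        have h1 := (rq_bd ng (by linarith [(eT_le h m).1] : (n : ℝ) * (cT n * q.ε) ≤ 1 / 2)
          (mem_univ (mid z))).1
        have h2 : 0 ≤ dt (dif z) (dif z) := dt_nonneg _
        linarith
      have h1 := sd_z2b hz hP hr
      have h2 := sd_B hz (Or.inr rfl) hP hN
      have h3 : 1 / 2 ≤ d.m₁ q (d.u q z) := by
        have hx := d.ξ_is q
        have x1 := hx.le (d.u q z)
        have x0 := hx.pos (d.u q z)
        have x2 := b3 p10
        have x3 : 0 ≤ q.σ / (q.CB * q.R) := by positivity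
        have x4 : Real.exp (-(26 / 100 * d.u q z)) ≤ 1 := Real.exp_le_one_iff.2 (by linarith)
        have x5 := Real.exp_pos (-(26 / 100 * d.u q z))
        have x6 : q.σ / (q.CB * q.R) * d.ξ q (d.u q z) ≤ 1 := mul_le_one₀ x2 x0.le x1
        have x7 : 0 ≤ q.σ / (q.CB * q.R) * d.ξ q (d.u q z) := mul_nonneg x3 x0.le
        unfold Pk.m₁ H932.EP.m1x
        rw [one_div]
        exact inv_anti₀ (by linarith) (by linarith)
      refine ⟨by linarith, ?_⟩
      have h4 : d.N q z ^ 2 * 8192 ≤ d.N q z ^ (13 / 5 : ℝ) := by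
        have e : d.N q z ^ (13 / 5 : ℝ) = d.N q z ^ 2 * d.N q z ^ (3 / 5 : ℝ) := by
          rw [← Real.rpow_natCast, ← Real.rpow_add hN]; norm_num
        rw [e]
        exact mul_le_mul_of_nonneg_left (b2.trans (Real.rpow_le_rpow (by linarith) hN0
          (by norm_num))) (by positivity)
      calc 4096 * d.N q z ^ 2 = d.N q z ^ 2 * 8192 * (1 / 2) := by ring
        _ ≤ d.E q z * d.m q z := mul_le_mul (h4.trans h2) (h3.trans h1) (by norm_num) hE.le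
  have hr0 : 0 < d.r2 z := by
    have h1 : d.m q z = d.E q z * d.r2 z := rfl
    rw [h1] at hm0
    exact (mul_pos_iff_of_pos_left hE).1 hm0
  exact ⟨loc h m hrc (by linarith) hub, hrc, hr0, hN0, hNE, hu0, hut, hmm⟩

end Vale.Agent.P088.R2.H942.Pk
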