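import Vale.Agent.P088.R2.H942.Pk.Tot

/-!
# P088, stage 3, zone II: the set where a leaf of zone II is alive; smoothness of the fields
-/

open Set Filter
open scoped ContDiff Topology Matrix

noncomputable section

namespace Vale.Agent.P088.R2.H942.Pk

open Vale.Agent.P088.LR Vale.Agent.P088.HY Vale.Agent.P088.R2.H464.Cu Vale.Agent.P088.R2.H31.EP
open Vale.Agent.P088.R2.H606.EP (Lm Z2 Ob Uz cT Zn evZn Bk Bk_ge Bn Bn_ge wn_ok kz_b ten eT_le
  prS₁ prS₂ prS_d1 prS_d2 prS_sm prS₂_sm)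
open Vale.Agent.P088.R2.H983.Fl (Wn)
open Vale.Agent.P088.R2.H814.An (U2 Zq' evZq)
open Vale.Agent.P088.R2.H961.GW (Sl Sm)

variable {n : ℕ} {q : Cst} {d : Pk n} {z w : VV n}

/-- The alive set of zone II. -/
def AS (q : Cst) (d : Pk n) : Set (VV n) := {z | Z2 q d z}

theorem AS_open (h : LitSm q d) : IsOpen (AS q d) := by
  have h1 : Continuous (d.ch q .z2a) := (h.ch .z2a).continuous
  have h2 : Continuous (d.ch q .z2b) := (h.ch .z2b).continuous
  exact (isOpen_ne_fun h1 continuous_const).union (isOpen_ne_fun h2 continuous_const)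

/-- The alive points are in helper814's region. -/
theorem AS_U2 (h : PkOk q d) (m : Lm n q) (A : Al q d z) : z ∈ U2 q d := by
  obtain ⟨r0, r2, rc, rq, rN⟩ := r_bd h m A
  have hN0 : 0 < d.N q z := by
    have := A.N0
    have := m.M1
    linarith
  have hE : 0 < d.E q z := Real.exp_pos _
  have hr1 : d.r2 z < 1 := by
    have := A.rc
    have := m.c1
    have := m.c0
    nlinarith
  refine ⟨⟨hr1, lt_of_le_of_ne A.ut fun hu => ?_⟩, by linarith⟩
  -- `u = uta` is impossible: `N(uta) ≥ e^(uta + 1)`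
  have hR := m.R1
  have l0 := H606.EP.l0_ge' h m.toNm
  have l1 := H606.EP.l0_le' h m.toNm
  have hR2 := m.R2
  have e1 : deriv d.Φ (d.uta q) = deriv d.Φ (d.uth q) * Real.exp (2 * (d.uta q - d.uth q)) :=
    H606.EP.N_rev h m.toNm (H606.EP.uth_ta h m.toNm) le_rfl
  have e2 : 4 ≤ deriv d.Φ (d.uth q) := by linarith [H606.EP.N_ge h (d.uth q), m.M1]
  have e3 : Real.exp (d.uta q) ≤ Real.exp (2 * (d.uta q - d.uth q)) := by
    rw [Real.exp_le_exp]
    unfold Pk.uta Pk.uth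
    linarith
  have e4 : d.N q z = deriv d.Φ (d.uta q) := by unfold Pk.N; rw [hu]
  have e5 : d.E q z = Real.exp (d.uta q) := by unfold Pk.E; rw [hu]
  have e6 := NE_le m A
  rw [e4, e5, e1] at e6
  have e7 := Real.exp_pos (2 * (d.uta q - d.uth q))
  nlinarith

theorem AS_sub (h : PkOk q d) (m : Lm n q) (ha : ∀ z, Z2 q d z → Al q d z) : AS q d ⊆ U2 q d :=
  fun z hz => AS_U2 h m (ha z hz)

section
variable (h : PkOk q d) (m : Lm n q)
include h m

theorem gi_sm' (i j : Fin n) : ContDiff ℝ ∞ fun x => gi d.s₁ x i j := by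
  obtain ⟨-, -, ng⟩ := ten h m univ isOpen_univ
  exact contDiffOn_univ.1 (ng.sm i j)

/-- The data of zone II are smooth. -/
theorem smo (V : Set (VV n)) : (d.wn q).Smo univ V where
  op := isOpen_univ
  mi := fun _ _ => mem_univ _
  sg := fun i j => (gi_sm' h m i j).contDiffOn
  ss := fun i j => (h.rg.sm₁ i j).contDiffOn
  sl := h.l_sm.contDiffOn
  su := (h.u_sm (gi_sm' h m)).contDiffOn
  sΦ := h.Φ's
  sμ := (contDiff_infty_iff_deriv.1 h.μ_sm).2
  sS := prS_sm m.eg0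
  sS₁ := by
    have e : deriv (prS q.e₁) = prS₁ q.e₁ := funext fun s => (prS_d1 m.eg0 s).deriv
    have h1 := (contDiff_infty_iff_deriv.1 (prS_sm m.eg0)).2
    rw [e] at h1
    exact h1
  sS₂ := prS₂_sm m.eg0

theorem r2_sm : ContDiff ℝ ∞ d.r2 := by
  have h1 : ContDiffOn ℝ ∞ (d.wn q).r2 univ := (smo h m univ).sr
  exact contDiffOn_univ.1 h1

/-- The margin is smooth. -/
theorem kz_sm {V : Set (VV n)} (hV : ∀ z ∈ V, 0 < d.r2 z ∧ 0 < d.l (mid z)) :
    ContDiffOn ℝ ∞ (kz q d) V := by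
  have su : ContDiff ℝ ∞ (d.u q) := h.u_sm (gi_sm' h m)
  have sE : ContDiff ℝ ∞ (d.E q) := su.exp
  have sm : ContDiff ℝ ∞ (d.m q) := sE.mul (r2_sm h m)
  have sK : ContDiff ℝ ∞ (d.Kf q) := h.Φ''s.comp su
  have sl : ContDiff ℝ ∞ fun z : VV n => d.l (mid z) := h.l_sm.comp contDiff_mid
  have e : kz q d = fun z => 1 / 10 ^ 9 * (d.m q z *
      (d.Kf q z / (d.Kf q z + d.m q z) + Mv q (d.l (mid z)) + q.σ * q.R⁻¹)) := funext (kz_eq q d)
  have sM : ContDiffOn ℝ ∞ (fun z : VV n => Mv q (d.l (mid z))) V := by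
    have e2 : (fun z : VV n => Mv q (d.l (mid z))) = fun z => (d.l (mid z) ^ (5 / 2 : ℝ) / Am +
        Real.exp (-(400 * (d.l (mid z) - t0 q))))⁻¹ := rfl
    rw [e2]
    refine ContDiffOn.inv ?_ fun z hz => ?_
    · refine ContDiffOn.add ?_ ?_
      · refine ContDiffOn.div_const ?_ _
        exact sl.contDiffOn.rpow_const_of_ne fun z hz => (hV z hz).2.ne'
      · exact ((contDiff_const.mul (sl.sub contDiff_const)).neg.exp).contDiffOn
    · have h1 := Real.rpow_nonneg (hV z hz).2.le (5 / 2)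
      have h2 := Am_pos
      have h3 := Real.exp_pos (-(400 * (d.l (mid z) - t0 q)))
      positivity
  rw [e]
  refine contDiffOn_const.mul (sm.contDiffOn.mul (((sK.contDiffOn.div
    (sK.add sm).contDiffOn fun z hz => ?_).add sM).add contDiffOn_const))
  have h1 : 0 < d.Kf q z := H606.EP.K_pos h _
  have h2 : 0 < d.m q z := mul_pos (Real.exp_pos _) (hV z hz).1
  positivity

/-- **The fields are smooth** on every set of alive points. -/
theorem fields_sm {V : Set (VV n)} {B : ℝ} (hV : ∀ z ∈ V, 0 < d.r2 z ∧ 0 < d.l (mid z))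
    (hB : ∀ z ∈ V, (d.wn q).Ok B z) : ContDiffOn ℝ ∞ (kE q d) V ∧
      ∀ i, ContDiffOn ℝ ∞ ((d.wn q).c₁ (kE q d) i) V ∧
        ContDiffOn ℝ ∞ ((d.wn q).c₂ (kE q d) i) V := by
  have S := smo h m V
  have sa := S.sa hB
  have sk : ContDiffOn ℝ ∞ (kE q d) V := by
    have su : ContDiff ℝ ∞ (d.u q) := h.u_sm (gi_sm' h m)
    refine (contDiffOn_const.mul (kz_sm h m hV)).div (su.exp.contDiffOn.mul (sa.pow 2))
      fun z hz => ?_
    have h1 := Real.exp_pos (d.u q z)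
    have h2 := (hB z hz).a0.1
    positivity
  exact ⟨sk, fun i => S.fields hB sk i⟩

end

/-- **The alive set of zone II.** -/
theorem as_ev (hn : 1 ≤ n) : EvC fun q => ∀ d : Pk n, PkOk q d →
    IsOpen (AS q d) ∧ AS q d ⊆ U2 q d ∧ (∀ z ∈ AS q d, Al q d z) ∧
      ContDiffOn ℝ ∞ (kz q d) (AS q d) ∧ ContDiffOn ℝ ∞ (kE q d) (AS q d) ∧
      (∀ i, ContDiffOn ℝ ∞ ((d.wn q).c₁ (kE q d) i) (AS q d)) ∧
      ∀ i, ContDiffOn ℝ ∞ ((d.wn q).c₂ (kE q d) i) (AS q d) := by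
  have b3 := evZn hn (a := 1 / 64) (by norm_num) (fun _ => 1) (fun _ => rfl) fun _ => le_rfl
  refine ((b3.and (al hn)).and ((EvC.litSm n).and (mq_ev n))).mono ?_
  rintro q ⟨⟨m, a⟩, s, Q⟩ d h
  have ml := m.toLm
  have hA : ∀ z ∈ AS q d, Al q d z := fun z hz => a d h z hz
  have hV : ∀ z ∈ AS q d, 0 < d.r2 z ∧ 0 < d.l (mid z) := fun z hz =>
    ⟨(hA z hz).r0, by linarith [s_ge h ml (hA z hz) Q]⟩
  have hB : ∀ z ∈ AS q d, (d.wn q).Ok (Bn n) z := fun z hz =>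
    wn_ok h m le_rfl (H606.EP.al h m hz)
  obtain ⟨f1, f2⟩ := fields_sm h ml hV hB
  exact ⟨AS_open (s d h), AS_sub h ml fun z hz => hA z hz, hA, kz_sm h ml hV, f1,
    fun i => (f2 i).1, fun i => (f2 i).2⟩

/-- **Zone II: the field `tot`** at the alive points (no open set). -/
theorem tot_as (hn : 1 ≤ n) (K₁ L₀ η : Cst → ℝ) (hL : NB_CB L₀) (hη : NB_CB η) :
    EvC fun q => KtZ n q ≤ K₁ q → 0 ≤ L₀ q → 0 < η q → ∀ d : Pk n, PkOk q d → ∀ z, Z2 q d z →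
      ∀ k g ee : ℝ, kz q d z ≤ k → k ≤ 5 / 4 * kz q d z → 1 ≤ g * d.r2 z → g * d.r2 z ≤ 4 →
      d.E q z ^ 2 ≤ ee → ∀ (Y Y' : Fin n → ℝ) (x y : ℝ),
      4 * (k * ((∑ i, Y i ^ 2) + ∑ i, Y' i ^ 2)) +
        L₀ q * (g * H86.Z.wq (H475.Z.frx d.s₁) (H475.Z.fry d.s₂) z Y Y') -
        K₁ q * (ee * (x + y) ^ 2) -
        η q * (k * d.sx.F (d.W q) z * x ^ 2 + k * d.sy.F (d.W q) z * y ^ 2) ≤
        8 * (H644.Ch.TH d.sx d.sy (d.W q) z Y Y' +
          H960.W.tc d.sx ((d.wn q).c₁ (kE q d)) (d.W q) z Y +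
          H960.W.tc d.sy ((d.wn q).c₂ (kE q d)) (d.W q) z Y') +
        H747.S.qf d.sx d.sy 0 0 (d.W q) z Y Y' x y +
        16 * (H960.W.dF d.sx ((d.wn q).c₁ (kE q d)) (d.W q) z * x ^ 2 +
          H960.W.dF d.sy ((d.wn q).c₂ (kE q d)) (d.W q) z * y ^ 2) := by
  refine ((tot_ev hn K₁ L₀ η hL hη).and (as_ev hn)).mono ?_
  rintro q ⟨t, a⟩ hK hL0 hη0 d h z hz
  obtain ⟨a1, a2, -, -, -, a3, a4⟩ := a d h
  exact t hK hL0 hη0 d h z hz (AS q d) a1 a2 hz a3 a4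

end Vale.Agent.P088.R2.H942.Pk
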