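import Vale.Agent.P088.R2.H942.Pk.Al
import Vale.Agent.P088.R2.H86.Z.Wnp

/-!
# P088, stage 3, zone II: the length of the gradient of the level, the profile
-/

open Set Filter
open scoped ContDiff Topology Matrix

noncomputable section

namespace Vale.Agent.P088.R2.H942.Pk

open Vale.Agent.P088.LR Vale.Agent.P088.HY Vale.Agent.P088.R2.H464.Cu Vale.Agent.P088.R2.H31.EP
open Vale.Agent.P088.R2.H606.EP
open Vale.Agent.P088.R2.H983.Fl (Wn lam gl aa')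
open Vale.Agent.P088.R2.H644 (Fs Fs1 Fs2)

variable {n : ℕ} {q : Cst} {d : Pk n} {z w : VV n}

section
variable (h : PkOk q d) (m : Lm n q) (L : Loc q d z)
include h m L

theorem gl_eq (i : Fin n) : pd i d.l (mid z) = wv n q.σ q.R i (mid z) := by
  have hR : 0 < q.R := by linarith [m.R1]
  have e : d.l =ᶠ[𝓝 (mid z)] lv n q.σ q.R d.kap d.Gs :=
    L.el.eventuallyEq_of_mem ((Ob_open z).mem_nhds (mid_Ob z))
  have e2 : pd i d.l (mid z) = pd i (lv n q.σ q.R d.kap d.Gs) (mid z) := by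
    show fderiv ℝ _ _ _ = fderiv ℝ _ _ _
    rw [e.fderiv_eq]
  rw [e2, lv_pd hR.ne']

/-- `|∇ l|` at the midpoint. -/
theorem lam_bd : 9 / 10 ≤ lam d.s₁ d.l (mid z) ^ 2 ∧ lam d.s₁ d.l (mid z) ^ 2 ≤ 11 / 10 ∧
    9 / 10 ≤ lam d.s₁ d.l (mid z) ∧ lam d.s₁ d.l (mid z) ≤ 11 / 10 := by
  have hR : 0 < q.R := by linarith [m.R1]
  have hσ := m.σ0
  have hσ1 := m.σ1
  have e1 : ∑ i, gl d.l (mid z) i ^ 2 = 1 + 2 * q.σ * T4.gy n q.σ (q.R⁻¹ • mid z) := by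
    rw [← wv_sq m.n1]
    exact Finset.sum_congr rfl fun i _ => by
      show pd i d.l (mid z) ^ 2 = _
      rw [gl_eq h m L]
  have e2 : T4.gy n q.σ (q.R⁻¹ • mid z) = (d.l (mid z) - d.l₀ q) / q.R := by
    rw [gy_lv (kap := d.kap) (Gs := d.Gs) hR.ne', ← L.el (mid_Ob z)]
    rfl
  have b1 : -(1 / 4) ≤ (d.l (mid z) - d.l₀ q) / q.R := by
    rw [le_div_iff₀ hR]; linarith [L.lo]
  have b2 : (d.l (mid z) - d.l₀ q) / q.R ≤ 236 / 100 := by
    rw [div_le_iff₀ hR]; linarith [L.hi]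
  rw [e2] at e1
  have hn : (1 : ℝ) ≤ n := by exact_mod_cast m.n1
  have hε : (n : ℝ) * q.ε ≤ 1 / 16 := by
    have h1 := m.εT
    have h2 := cT_ge n
    have h3 := m.ε0
    have h4 : 0 ≤ (n : ℝ) * q.ε := by positivity
    nlinarith
  have h3 := abs_le.1 (bf_close (h.s₁_close (mid z)) (gl d.l (mid z)))
  rw [e1] at h3
  have s1 : 99 / 100 ≤ 1 + 2 * q.σ * ((d.l (mid z) - d.l₀ q) / q.R) := by nlinarith
  have s2 : 1 + 2 * q.σ * ((d.l (mid z) - d.l₀ q) / q.R) ≤ 101 / 100 := by nlinarith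
  obtain ⟨S, hS⟩ : ∃ S, S = 1 + 2 * q.σ * ((d.l (mid z) - d.l₀ q) / q.R) := ⟨_, rfl⟩
  rw [← hS] at h3 s1 s2
  have h5 : (n : ℝ) * q.ε * S ≤ 1 / 16 * S := mul_le_mul_of_nonneg_right hε (by linarith)
  have k1 : 9 / 10 ≤ bf (d.s₁ (mid z)) (gl d.l (mid z)) (gl d.l (mid z)) := by linarith
  have k2 : bf (d.s₁ (mid z)) (gl d.l (mid z)) (gl d.l (mid z)) ≤ 11 / 10 := by linarith
  have k3 : lam d.s₁ d.l (mid z) ^ 2 = bf (d.s₁ (mid z)) (gl d.l (mid z)) (gl d.l (mid z)) :=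
    Real.sq_sqrt (by linarith)
  have k4 : 0 ≤ lam d.s₁ d.l (mid z) := Real.sqrt_nonneg _
  rw [k3]
  refine ⟨k1, k2, ?_, ?_⟩
  · rw [← k3] at k1; nlinarith
  · rw [← k3] at k2; nlinarith

end

/-- The profile. -/
theorem prf_eq {e₁ s : ℝ} (he : 0 < e₁) (h1 : s < 1) : prS e₁ s = Fs 4 s ∧
    prS₁ e₁ s = Fs1 4 s ∧ prS₂ e₁ s = Fs2 4 s := by
  have e4 : (2 : ℝ) ^ 2 = 4 := by norm_num
  refine ⟨?_, ?_, ?_⟩
  · have := (pp_ok he).Ph_eq (s := s) (h1.le.trans rp_sq)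
    rw [e4] at this
    exact this
  · have := (pp_ok he).Ph1_eq (s := s) (h1.le.trans rp_sq)
    rw [e4] at this
    exact this
  · have := (pp_ok he).Ph2_eq (s := s) (h1.trans_le rp_sq)
    rw [e4] at this
    exact this

end Vale.Agent.P088.R2.H942.Pk
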