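import Vale.Agent.P088.R2.H942.Pk.Lam
import Vale.Agent.P088.R2.H942.Pk.Mu
import Vale.Agent.P088.R2.H942.Zt6

/-!
# P088, stage 3, zone II: the numbers of the certificate on the package
-/

open Set Filter
open scoped ContDiff Topology Matrix

noncomputable section

namespace Vale.Agent.P088.R2.H942.Pk

open Vale.Agent.P088.LR Vale.Agent.P088.HY Vale.Agent.P088.R2.H464.Cu Vale.Agent.P088.R2.H31.EP
open Vale.Agent.P088.R2.H606.EP
open Vale.Agent.P088.R2.H983.Fl (Wn lam gl aa')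
open Vale.Agent.P088.R2.H644 (Fs Fs1 Fs2)
open Vale.Agent.P088.R2.H86.Z (lm)
open Vale.Agent.P088.R2.H942.Z (NmW)

variable {n : ℕ} {q : Cst} {d : Pk n} {z w : VV n}

/-- The precision of the certificate. -/
def eZ (n : ℕ) : ℝ := 1 / (36 * 10 ^ 15 * CZ n ^ 2)

/-- The derivatives of the tensors. -/
def d₁ (n : ℕ) (q : Cst) : ℝ := cT n * q.ε * q.R⁻¹
def d₂ (n : ℕ) (q : Cst) : ℝ := cT n * q.ε * q.R⁻¹ ^ 2

/-- The difference of the tensors near `z`. -/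
def h₀ (q : Cst) (d : Pk n) (z : VV n) : ℝ := q.ε * Real.exp (-(100 * (d.l (mid z) - 2 * n)))
def h₁ (q : Cst) (d : Pk n) (z : VV n) : ℝ :=
  q.ε * q.R⁻¹ * Real.exp (-(100 * (d.l (mid z) - 2 * n)))

/-- The deviation of the frames. -/
def DD (q : Cst) (d : Pk n) (z : VV n) : ℝ := d₁ n q * ‖dif z‖ + h₀ q d z

/-- Numbers of the constants. -/
structure NQ (n : ℕ) (q : Cst) : Prop where
  c0 : 2 * q.c₀ ≤ eZ n
  t1 : q.σ ≤ eZ n
  e1 : cT n * q.ε ≤ eZ n * q.σ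
  e2 : 1792 * (n : ℝ) ^ 4 * (cT n * q.ε) ≤ q.σ
  e3 : 2 * q.ε * Real.exp (200 * n + 1) ≤ eZ n
  e4 : 1152 * (n : ℝ) ^ 14 * (cT n * q.ε) ≤ q.σ
  e5 : 576 * (n : ℝ) ^ 14 * (q.ε * Real.exp (200 * n + 1)) ^ 2 ≤ 1
  e6 : 8 * (n : ℝ) ^ 6 * (cT n * q.ε + q.ε * Real.exp (200 * n + 1)) ≤ 1

theorem CZ_pos (n : ℕ) : 0 < CZ n := by linarith [CZ_ge n]

theorem eZ_pos (n : ℕ) : 0 < eZ n := by
  have := CZ_pos n
  unfold eZ; positivity

theorem eZ_le (n : ℕ) : eZ n ≤ 1 / 10 ^ 6 := by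
  have h1 := CZ_ge n
  unfold eZ
  apply one_div_le_one_div_of_le (by norm_num)
  nlinarith

/-- A linear condition on `ε`. -/
theorem ev_lin {a b : ℝ} (ha : 0 ≤ a) (hb : 0 < b) : ∀ᶠ t in sml, a * t ≤ b := by
  filter_upwards [sml_pos, sml_le (a := b / (a + 1)) (by positivity)] with t h1 h2
  rw [le_div_iff₀ (by positivity)] at h2
  linarith

theorem nq_ev (n : ℕ) : EvC fun q => NQ n q := by
  have hc : 0 < cT n := by linarith [cT_ge n]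
  have he := eZ_pos n
  have a1 : EvC fun q => 2 * q.c₀ ≤ eZ n :=
    EvC.at_c₀ (fun _ t => 2 * t ≤ eZ n) fun _ => ev_lin (by norm_num) he
  have a2 : EvC fun q => q.σ ≤ eZ n := EvC.at_σ (fun _ t => t ≤ eZ n) fun _ => sml_le he
  have a3 : EvC fun q => 0 < q.σ → (cT n * q.ε ≤ eZ n * q.σ ∧
      1792 * (n : ℝ) ^ 4 * (cT n * q.ε) ≤ q.σ ∧ 1152 * (n : ℝ) ^ 14 * (cT n * q.ε) ≤ q.σ) := by
    refine EvC.at_ε (fun q t => 0 < q.σ → (cT n * t ≤ eZ n * q.σ ∧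
      1792 * (n : ℝ) ^ 4 * (cT n * t) ≤ q.σ ∧ 1152 * (n : ℝ) ^ 14 * (cT n * t) ≤ q.σ)) fun q => ?_
    by_cases h : 0 < q.σ
    · filter_upwards [ev_lin hc.le (mul_pos he h),
        ev_lin (a := 1792 * (n : ℝ) ^ 4 * cT n) (by positivity) h,
        ev_lin (a := 1152 * (n : ℝ) ^ 14 * cT n) (by positivity) h] with t h1 h2 h3 _
      exact ⟨h1, by linarith, by linarith⟩
    · exact Eventually.of_forall fun _ h1 => absurd h1 h
  have a4 : EvC fun q => 0 < q.ε ∧ 2 * q.ε * Real.exp (200 * n + 1) ≤ eZ n ∧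
      576 * (n : ℝ) ^ 14 * (q.ε * Real.exp (200 * n + 1)) ^ 2 ≤ 1 ∧
      8 * (n : ℝ) ^ 6 * (cT n * q.ε + q.ε * Real.exp (200 * n + 1)) ≤ 1 := by
    refine EvC.at_ε (fun _ t => 0 < t ∧ 2 * t * Real.exp (200 * n + 1) ≤ eZ n ∧
      576 * (n : ℝ) ^ 14 * (t * Real.exp (200 * n + 1)) ^ 2 ≤ 1 ∧
      8 * (n : ℝ) ^ 6 * (cT n * t + t * Real.exp (200 * n + 1)) ≤ 1) fun _ => ?_
    have hx := Real.exp_pos (200 * (n : ℝ) + 1)
    filter_upwards [sml_pos, sml_le one_pos,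
      ev_lin (a := 2 * Real.exp (200 * (n : ℝ) + 1)) (by positivity) he,
      ev_lin (a := 576 * (n : ℝ) ^ 14 * Real.exp (200 * (n : ℝ) + 1) ^ 2) (by positivity) one_pos,
      ev_lin (a := 8 * (n : ℝ) ^ 6 * (cT n + Real.exp (200 * (n : ℝ) + 1))) (by positivity)
        one_pos] with t h0 h1 h2 h3 h4
    refine ⟨h0, by linarith, ?_, by linarith⟩
    have h5 : t ^ 2 ≤ t := by nlinarith
    have h6 : 0 ≤ 576 * (n : ℝ) ^ 14 * Real.exp (200 * (n : ℝ) + 1) ^ 2 := by positivity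
    calc 576 * (n : ℝ) ^ 14 * (t * Real.exp (200 * n + 1)) ^ 2 =
          576 * (n : ℝ) ^ 14 * Real.exp (200 * (n : ℝ) + 1) ^ 2 * t ^ 2 := by ring
      _ ≤ 576 * (n : ℝ) ^ 14 * Real.exp (200 * (n : ℝ) + 1) ^ 2 * t :=
          mul_le_mul_of_nonneg_left h5 h6
      _ ≤ 1 := h3
  refine ((a1.and a2).and ((a3.and a4).and EvC.pos)).mono ?_
  rintro q ⟨⟨b1, b2⟩, ⟨b3, b4, b5, b6, b7⟩, -, ⟨-, hσ, -⟩, -⟩
  obtain ⟨c1, c2, c3⟩ := b3 hσ
  exact ⟨b1, b2, c1, c2, b5, c3, b6, b7⟩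

section
variable (h : PkOk q d) (m : Lm n q) (A : Al q d z) (Q : MQ n q) (P : NQ n q)
include h m A Q P

omit h A Q P in
theorem d_nn : 0 ≤ d₁ n q ∧ 0 ≤ d₂ n q := by
  have := m.ε0
  have := m.R1
  have := cT_ge n
  unfold d₁ d₂
  constructor <;> positivity

omit h A Q P in
theorem R_inv : 0 < q.R⁻¹ ∧ q.R⁻¹ ≤ 1 := by
  have := m.R1
  exact ⟨by positivity, inv_le_one_of_one_le₀ this⟩

omit h A Q in
theorem d_le : d₁ n q ≤ eZ n * (q.σ * q.R⁻¹) ∧ d₂ n q ≤ eZ n * (q.σ * q.R⁻¹) := by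
  obtain ⟨r0, r1⟩ := R_inv m
  have h1 := mul_le_mul_of_nonneg_right P.e1 r0.le
  have h0 : 0 ≤ cT n * q.ε * q.R⁻¹ := (d_nn m).1
  have h2 : cT n * q.ε * q.R⁻¹ ^ 2 ≤ cT n * q.ε * q.R⁻¹ := by
    calc cT n * q.ε * q.R⁻¹ ^ 2 = cT n * q.ε * q.R⁻¹ * q.R⁻¹ := by ring
      _ ≤ _ := mul_le_of_le_one_right h0 r1
  unfold d₁ d₂
  constructor <;> linarith

omit P in
/-- `E h₀² ≤ 1`, `E h₀ ≤ 1`. -/
theorem h_le : 0 ≤ h₀ q d z ∧ 0 ≤ h₁ q d z ∧ h₁ q d z ≤ h₀ q d z ∧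
    d.E q z * h₀ q d z ≤ q.ε * Real.exp (200 * n + 1) ∧
    d.E q z * h₀ q d z ^ 2 ≤ (q.ε * Real.exp (200 * n + 1)) ^ 2 ∧
    h₀ q d z ≤ q.ε * Real.exp (200 * n + 1) := by
  obtain ⟨r0, r1⟩ := R_inv m
  have e0 := m.ε0
  have s4 := s_ge h m A Q
  have um := abs_le.1 A.L.um
  have hx := Real.exp_pos (-(100 * (d.l (mid z) - 2 * n)))
  have n0 : (0 : ℝ) ≤ n := Nat.cast_nonneg n
  have k1 : d.E q z * Real.exp (-(100 * (d.l (mid z) - 2 * n))) ≤ Real.exp (200 * n + 1) := by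
    unfold Pk.E
    rw [← Real.exp_add, Real.exp_le_exp]
    linarith
  have k2 : d.E q z * Real.exp (-(100 * (d.l (mid z) - 2 * n))) ^ 2 ≤
      Real.exp (200 * n + 1) ^ 2 := by
    unfold Pk.E
    rw [← Real.exp_nat_mul, ← Real.exp_nat_mul, ← Real.exp_add, Real.exp_le_exp]
    push_cast
    linarith
  have k3 : Real.exp (-(100 * (d.l (mid z) - 2 * n))) ≤ Real.exp (200 * n + 1) := by
    rw [Real.exp_le_exp]
    linarith
  have hh : 0 ≤ h₀ q d z := mul_nonneg e0 hx.le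
  have e1 : h₁ q d z = h₀ q d z * q.R⁻¹ := by unfold h₀ h₁; ring
  refine ⟨hh, ?_, ?_, ?_, ?_, mul_le_mul_of_nonneg_left k3 e0⟩
  · rw [e1]; exact mul_nonneg hh r0.le
  · rw [e1]; exact mul_le_of_le_one_right hh r1
  · calc d.E q z * h₀ q d z = q.ε * (d.E q z * Real.exp (-(100 * (d.l (mid z) - 2 * n)))) := by
          unfold h₀; ring
      _ ≤ _ := mul_le_mul_of_nonneg_left k1 e0
  · calc d.E q z * h₀ q d z ^ 2 =
          q.ε ^ 2 * (d.E q z * Real.exp (-(100 * (d.l (mid z) - 2 * n))) ^ 2) := by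
          unfold h₀; ring
      _ ≤ q.ε ^ 2 * Real.exp (200 * n + 1) ^ 2 := mul_le_mul_of_nonneg_left k2 (by positivity)
      _ = _ := by ring

omit Q P in
/-- The distance. -/
theorem r_bd : 0 < √(d.r2 z) ∧ √(d.r2 z) ^ 2 = d.r2 z ∧ √(d.r2 z) ≤ 2 * q.c₀ ∧
    ‖dif z‖ ≤ 2 * √(d.r2 z) ∧ 64 * d.N q z ≤ d.E q z * √(d.r2 z) := by
  have r0 : 0 < √(d.r2 z) := Real.sqrt_pos.2 A.r0
  have r2 : √(d.r2 z) ^ 2 = d.r2 z := Real.sq_sqrt A.r0.le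
  have c0 := m.c0
  refine ⟨r0, r2, ?_, ?_, ?_⟩
  · have h1 : √(d.r2 z) ^ 2 ≤ (2 * q.c₀) ^ 2 := by
      rw [r2]
      have := A.rc
      linarith
    exact (abs_le_of_sq_le_sq' h1 (by positivity)).2
  · obtain ⟨-, -, ng⟩ := ten h m univ isOpen_univ
    have h1 := (rq_bd ng (by linarith [(eT_le h m).1] : (n : ℝ) * (cT n * q.ε) ≤ 1 / 2)
      (mem_univ (mid z))).1
    have h2 := H606.Z.nsq_le_dt m.n1 (dif z)
    have h3 : d.r2 z = 2 * rq (gi d.s₁) z := rfl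
    have h4 : ‖dif z‖ ^ 2 ≤ (2 * √(d.r2 z)) ^ 2 := by
      rw [mul_pow, r2, h3]
      linarith
    exact (abs_le_of_sq_le_sq' h4 (by positivity)).2
  · have hE : 0 < d.E q z := Real.exp_pos _
    have h1 : (64 * d.N q z) ^ 2 ≤ (d.E q z * √(d.r2 z)) ^ 2 := by
      have h2 : d.m q z = d.E q z * d.r2 z := rfl
      have h3 := A.NN
      rw [h2] at h3
      rw [mul_pow, mul_pow, r2]
      linarith
    exact (abs_le_of_sq_le_sq' h1 (by positivity)).2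

/-- `D` is small. -/
theorem DD_le : 0 ≤ DD q d z ∧ 8 * (n : ℝ) ^ 6 * DD q d z ≤ 1 := by
  obtain ⟨g0, g1⟩ := d_nn m
  obtain ⟨r0, r1⟩ := R_inv m
  obtain ⟨k0, -, -, -, -, k5⟩ := h_le h m A Q
  have q2 := A.L.q2
  have q0 := norm_nonneg (dif z)
  have a1 : d₁ n q * ‖dif z‖ ≤ cT n * q.ε := by
    have b1 : d₁ n q ≤ cT n * q.ε := by
      have : 0 ≤ cT n * q.ε := by
        have := m.ε0
        have := cT_ge n
        positivity
      exact mul_le_of_le_one_right this r1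
    calc d₁ n q * ‖dif z‖ ≤ cT n * q.ε * 1 := mul_le_mul b1 (by linarith) q0 (g0.trans b1)
      _ = _ := mul_one _
  refine ⟨by unfold DD; positivity, ?_⟩
  refine le_trans ?_ P.e6
  exact mul_le_mul_of_nonneg_left (by unfold DD; linarith) (by positivity)

end

end Vale.Agent.P088.R2.H942.Pk
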