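import Vale.Agent.P088.R2.H942.Pk.Nm

/-!
# P088, stage 3, zone II: `NmW` on the package
-/

open Set Filter
open scoped ContDiff Topology Matrix

noncomputable section

namespace Vale.Agent.P088.R2.H942.Pk

open Vale.Agent.P088.LR Vale.Agent.P088.HY Vale.Agent.P088.R2.H464.Cu Vale.Agent.P088.R2.H31.EP
open Vale.Agent.P088.R2.H606.EP
open Vale.Agent.P088.R2.H983.Fl (Wn lam gl aa')
open Vale.Agent.P088.R2.H644 (Fs Fs1 Fs2)
open Vale.Agent.P088.R2.H86.Z (lm)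
open Vale.Agent.P088.R2.H942.Z (NmW)

variable {n : ℕ} {q : Cst} {d : Pk n} {z w : VV n}

section
variable (h : PkOk q d) (m : Lm n q) (A : Al q d z) (Q : MQ n q) (P : NQ n q) {b : ℝ}
  (B : MD q d z b) (k1 : 1 ≤ kz q d z)
include h m A Q P B k1

/-- The numbers at the point. -/
theorem nm_pk : H942.Iso.Near.Nm (CZ n) (1 / 64) (16 / 10 ^ 9) 8 (eZ n) (Real.exp (d.u q z))
    (deriv d.Φ (d.u q z)) (deriv (deriv d.Φ) (d.u q z)) (q.σ * q.R⁻¹) (√(d.r2 z)) (d₁ n q)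
    (d₂ n q) (h₀ q d z) (h₁ q d z) (Fs 4 (√(d.r2 z) ^ 2)) (Mv q (d.l (mid z))) b
    (16 * kz q d z) := by
  have hC := CZ_ge n
  have hC0 := CZ_pos n
  have he := eZ_pos n
  have he6 := eZ_le n
  obtain ⟨g1, g2⟩ := d_nn m
  obtain ⟨g3, g4⟩ := d_le m P
  obtain ⟨r0, r2, rc, rq, rN⟩ := r_bd h m A
  obtain ⟨x1, x2, x3, x4, x5, x6⟩ := h_le h m A Q
  obtain ⟨i0, i1⟩ := R_inv m
  have hE : 0 < d.E q z := Real.exp_pos _
  have hN0 : 0 < d.N q z := by
    have := A.N0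
    have := m.M1
    linarith
  have hNE := NE_le m A
  have hK : 0 < d.Kf q z := K_pos h _
  have hK2 : d.Kf q z ≤ 41 / 20 * d.N q z := K_le h m.toNm A.ut
  have hr1 : √(d.r2 z) ≤ eZ n := rc.trans P.c0
  have hKE : d.Kf q z ≤ d.E q z := by
    have h1 : 64 * d.N q z ≤ d.E q z * 1 :=
      rN.trans (mul_le_mul_of_nonneg_left (by linarith) hE.le)
    linarith
  have hmE : d.E q z * √(d.r2 z) ^ 2 ≤ d.E q z := by
    have : √(d.r2 z) ^ 2 ≤ 1 := by nlinarith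
    exact mul_le_of_le_one_right hE.le this
  have hm0 : 0 < d.E q z * √(d.r2 z) ^ 2 := by positivity
  obtain ⟨-, -, G0, G1, -, -⟩ := H942.Iso.Near.Fs2_bd (θ := 2) two_pos r0 (by linarith)
    (by linarith) (by norm_num)
  have e4 : (2 : ℝ) ^ 2 = 4 := by norm_num
  rw [e4] at G0 G1
  have bN : CZ n * b * (d.N q z + d.E q z * √(d.r2 z) ^ 2) ≤ d.Kf q z / 64 := by
    refine le_trans ?_ B.bb
    have := B.b0
    exact mul_le_mul_of_nonneg_left (by linarith) (by positivity)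
  have bE : b * d.E q z ≤ d.Kf q z / 64 := by
    have h1 : b * d.E q z ≤ CZ n * b * (d.N q z + d.E q z) := by
      have h2 : 1 * (b * d.E q z) ≤ CZ n * (b * d.E q z) :=
        mul_le_mul_of_nonneg_right (by linarith) (mul_nonneg B.b0 hE.le)
      have h3 : 0 ≤ CZ n * b * d.N q z := by
        have := B.b0
        positivity
      linarith
    exact h1.trans B.bb
  exact
  { C1 := by linarith
    c0 := by norm_num
    c1 := by norm_num
    c₁0 := by norm_num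
    c₁1 := by norm_num
    Z0 := by norm_num
    ε0 := he
    ε1 := by
      unfold eZ
      have h1 : 0 < CZ n ^ 2 := by positivity
      have e : 10 ^ 6 * CZ n ^ 2 * (1 + 8) * (1 / (36 * 10 ^ 15 * CZ n ^ 2)) =
          9 * 10 ^ 6 / (36 * 10 ^ 15) := by field_simp; norm_num
      rw [e]
      norm_num
    E0 := hE
    N0 := hN0.le
    NE := rN
    K0 := hK.le
    KE := hKE
    τ0 := mul_nonneg m.σ0.le i0.le
    τ1 := (mul_le_of_le_one_right m.σ0.le i1).trans P.t1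
    r0 := r0
    r1 := hr1
    d₁0 := g1
    d₁1 := g3
    d₂0 := g2
    d₂1 := g4
    h₀0 := x1
    h₁0 := x2
    hh := by
      have h1 : d.E q z * √(d.r2 z) * (h₀ q d z + h₁ q d z) ≤
          2 * (d.E q z * h₀ q d z) := by
        have h2 : d.E q z * √(d.r2 z) ≤ d.E q z * 1 :=
          mul_le_mul_of_nonneg_left (by linarith) hE.le
        calc d.E q z * √(d.r2 z) * (h₀ q d z + h₁ q d z) ≤
              d.E q z * 1 * (2 * h₀ q d z) :=
                mul_le_mul h2 (by linarith) (by linarith) (by linarith)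
          _ = _ := by ring
      have h3 : eZ n ≤ eZ n * (16 * kz q d z) := le_mul_of_one_le_right he.le (by linarith)
      have h4 := P.e3
      show d.E q z * √(d.r2 z) * (h₀ q d z + h₁ q d z) ≤ _
      linarith
    Gl := G0
    Gu := G1
    μ1 := B.M1
    μb := by linarith [B.b0, B.M0]
    b0 := B.b0
    bN := by
      show 32 * CZ n * b * (d.N q z + d.E q z * √(d.r2 z) ^ 2) ≤ d.Kf q z
      linarith
    bK := by
      show 2 * b * (d.Kf q z + d.E q z * √(d.r2 z) ^ 2) ≤ d.Kf q z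
      have h1 : 2 * b * (d.Kf q z + d.E q z * √(d.r2 z) ^ 2) ≤ 2 * b * (2 * d.E q z) :=
        mul_le_mul_of_nonneg_left (by linarith) (by linarith [B.b0])
      linarith
    eκ := by
      rw [kz_eq, r2]
      show 16 * (1 / 10 ^ 9 * (d.E q z * d.r2 z * (d.Kf q z / (d.Kf q z + d.E q z * d.r2 z) +
        Mv q (d.l (mid z)) + q.σ * q.R⁻¹))) = 16 / 10 ^ 9 * (d.E q z * d.r2 z) *
        (d.Kf q z / (d.Kf q z + d.E q z * d.r2 z) + Mv q (d.l (mid z)) + q.σ * q.R⁻¹)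
      ring }

omit k1 in
/-- `a` is close to `1`. -/
theorem a_bd : |deriv (d.μc q) (d.l (mid z))| ≤ 1 / 4 ∧ 1 / 2 ≤ (d.wn q).a z ∧
    (d.wn q).a z ≤ 2 := by
  obtain ⟨l1, l2, l3, l4⟩ := lam_bd h m A.L
  have μ1 := (muc_b h m.Rc (d.l (mid z))).2.2.1
  have h1 := abs_le.1 μ1
  have e : (d.wn q).a z = lam d.s₁ d.l (mid z) * (1 + deriv (d.μc q) (d.l (mid z))) := rfl
  refine ⟨μ1, ?_, ?_⟩
  · rw [e]
    calc (1 : ℝ) / 2 ≤ 9 / 10 * (3 / 4) := by norm_num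
      _ ≤ _ := mul_le_mul l3 (by linarith) (by norm_num) (by linarith)
  · rw [e]
    calc lam d.s₁ d.l (mid z) * (1 + deriv (d.μc q) (d.l (mid z))) ≤ 11 / 10 * (5 / 4) :=
          mul_le_mul l4 (by linarith) (by linarith) (by norm_num)
      _ ≤ 2 := by norm_num

/-- The convexity of the level. -/
theorem gam_pk : ∃ ℓ : ℝ, 0 ≤ ℓ ∧ (d.N q z + d.E q z * Fs 4 (√(d.r2 z) ^ 2)) * ℓ ≤
      16 * kz q d z / 64 ∧
    8 * (1 / 64 * (q.σ * q.R⁻¹)) - ℓ ≤ q.σ * q.R⁻¹ / 4 - 28 * (n : ℝ) ^ 4 * (d₁ n q * 2) -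
      16 * (n : ℝ) ^ 4 * (|deriv (d.μc q) (d.l (mid z))| * (q.σ * q.R⁻¹)) -
      32 * (n : ℝ) ^ 14 * (|deriv (deriv (d.μc q)) (d.l (mid z))| *
        (DD q d z * lam d.s₁ d.l (mid z)) ^ 2) := by
  obtain ⟨l1, l2, l3, l4⟩ := lam_bd h m A.L
  obtain ⟨g1, g2⟩ := d_nn m
  obtain ⟨i0, i1⟩ := R_inv m
  obtain ⟨x1, x2, x3, x4, x5, x6⟩ := h_le h m A Q
  have N := nm_pk h m A Q P B k1
  have τ0 : 0 ≤ q.σ * q.R⁻¹ := N.τ0
  have hE : 0 < d.E q z := Real.exp_pos _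
  refine ⟨72 * (n : ℝ) ^ 14 * h₀ q d z ^ 2, by positivity, ?_, ?_⟩
  · have a1 : d.N q z + d.E q z * Fs 4 (√(d.r2 z) ^ 2) ≤ 2 * d.E q z := by
      have h1 := NE_le m A
      have h2 : Fs 4 (√(d.r2 z) ^ 2) ≤ 1 := by
        have h3 := N.Gu
        have h4 : √(d.r2 z) ^ 2 ≤ 1 := by
          have := N.r1
          have := N.r0
          have := N.ε3
          nlinarith
        linarith
      have := mul_le_mul_of_nonneg_left h2 hE.le
      linarith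
    calc (d.N q z + d.E q z * Fs 4 (√(d.r2 z) ^ 2)) * (72 * (n : ℝ) ^ 14 * h₀ q d z ^ 2) ≤
          2 * d.E q z * (72 * (n : ℝ) ^ 14 * h₀ q d z ^ 2) :=
            mul_le_mul_of_nonneg_right a1 (by positivity)
      _ = 144 * (n : ℝ) ^ 14 * (d.E q z * h₀ q d z ^ 2) := by ring
      _ ≤ 144 * (n : ℝ) ^ 14 * (q.ε * Real.exp (200 * n + 1)) ^ 2 :=
          mul_le_mul_of_nonneg_left x5 (by positivity)
      _ ≤ 1 / 4 := by linarith [P.e5]
      _ ≤ _ := by linarith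
  · have b1 : 28 * (n : ℝ) ^ 4 * (d₁ n q * 2) ≤ q.σ * q.R⁻¹ / 32 := by
      have := mul_le_mul_of_nonneg_right P.e2 i0.le
      unfold d₁
      linarith
    have b2 : 16 * (n : ℝ) ^ 4 * (|deriv (d.μc q) (d.l (mid z))| * (q.σ * q.R⁻¹)) ≤
        q.σ * q.R⁻¹ / 32 := by
      have := mul_le_mul_of_nonneg_right B.mu1 τ0
      linarith
    have b3 : (DD q d z * lam d.s₁ d.l (mid z)) ^ 2 ≤
        9 / 8 * (d₁ n q ^ 2 + 2 * h₀ q d z ^ 2) := by
      have q0 := norm_nonneg (dif z)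
      have q2 := A.L.q2
      have c1 : DD q d z ^ 2 ≤ d₁ n q ^ 2 + 2 * h₀ q d z ^ 2 := by
        have c2 : d₁ n q * ‖dif z‖ ≤ d₁ n q / 2 := by
          have := mul_le_mul_of_nonneg_left q2 g1
          linarith
        have c3 : 0 ≤ d₁ n q * ‖dif z‖ := by positivity
        have c4 : (d₁ n q * ‖dif z‖) ^ 2 ≤ (d₁ n q / 2) ^ 2 := pow_le_pow_left₀ c3 c2 2
        have c5 : DD q d z = d₁ n q * ‖dif z‖ + h₀ q d z := rfl
        have c6 := sq_nonneg (d₁ n q * ‖dif z‖ - h₀ q d z)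
        have c7 := sq_nonneg (d₁ n q)
        rw [c5]
        nlinarith
      have c8 : 0 ≤ DD q d z ^ 2 := sq_nonneg _
      have c9 := sq_nonneg (lam d.s₁ d.l (mid z))
      calc (DD q d z * lam d.s₁ d.l (mid z)) ^ 2 =
            lam d.s₁ d.l (mid z) ^ 2 * DD q d z ^ 2 := by ring
        _ ≤ 9 / 8 * (d₁ n q ^ 2 + 2 * h₀ q d z ^ 2) :=
            mul_le_mul (by linarith) c1 c8 (by norm_num)
    have b4 : 32 * (n : ℝ) ^ 14 * (|deriv (deriv (d.μc q)) (d.l (mid z))| *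
        (DD q d z * lam d.s₁ d.l (mid z)) ^ 2) ≤
        36 * (n : ℝ) ^ 14 * d₁ n q ^ 2 + 72 * (n : ℝ) ^ 14 * h₀ q d z ^ 2 := by
      have c1 : |deriv (deriv (d.μc q)) (d.l (mid z))| *
          (DD q d z * lam d.s₁ d.l (mid z)) ^ 2 ≤
          1 * (9 / 8 * (d₁ n q ^ 2 + 2 * h₀ q d z ^ 2)) :=
        mul_le_mul B.mu2 b3 (sq_nonneg _) zero_le_one
      calc 32 * (n : ℝ) ^ 14 * (|deriv (deriv (d.μc q)) (d.l (mid z))| *
          (DD q d z * lam d.s₁ d.l (mid z)) ^ 2) ≤ 32 * (n : ℝ) ^ 14 *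
            (1 * (9 / 8 * (d₁ n q ^ 2 + 2 * h₀ q d z ^ 2))) :=
            mul_le_mul_of_nonneg_left c1 (by positivity)
        _ = _ := by ring
    have b5 : 36 * (n : ℝ) ^ 14 * d₁ n q ^ 2 ≤ q.σ * q.R⁻¹ / 32 := by
      have c1 : d₁ n q ≤ 1 := by
        have := N.d₁1
        have h1 : eZ n * (q.σ * q.R⁻¹) ≤ 1 * 1 :=
          mul_le_mul (by linarith [eZ_le n]) (by linarith [N.τ1, eZ_le n]) τ0 zero_le_one
        linarith
      have c2 : d₁ n q ^ 2 ≤ d₁ n q := by nlinarith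
      have c3 := mul_le_mul_of_nonneg_right P.e4 i0.le
      have c4 : 1152 * (n : ℝ) ^ 14 * d₁ n q ≤ q.σ * q.R⁻¹ := by unfold d₁; linarith
      have c5 : 36 * (n : ℝ) ^ 14 * d₁ n q ^ 2 ≤ 36 * (n : ℝ) ^ 14 * d₁ n q :=
        mul_le_mul_of_nonneg_left c2 (by positivity)
      linarith
    linarith

/-- **The numbers of the certificate on the package.** -/
theorem nmW_pk : NmW (d.wn q) (CZ n) (1 / 64) (16 / 10 ^ 9) (eZ n) (q.σ * q.R⁻¹) (√(d.r2 z))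
    (d₁ n q) (d₂ n q) (h₀ q d z) (h₁ q d z) (DD q d z) 2 (q.σ * q.R⁻¹) (q.σ * q.R⁻¹)
    (Mv q (d.l (mid z))) b (16 * kz q d z) 2 1 (kE q d) z := by
  obtain ⟨l1, l2, l3, l4⟩ := lam_bd h m A.L
  obtain ⟨r0, r2, rc, rq, rN⟩ := r_bd h m A
  obtain ⟨μ1, a1, a2⟩ := a_bd h m A Q P B
  have hr : d.r2 z < 1 := by
    have := A.rc
    have := m.c1
    have := m.c0
    nlinarith
  obtain ⟨p1, p2, p3⟩ := prf_eq m.eg0 hr
  have n1 : (1 : ℝ) ≤ n := by exact_mod_cast m.n1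
  have hC : (13568 : ℝ) * (n + 1) ^ 16 = CZ n := rfl
  have n16 : (n : ℝ) ^ 7 ≤ (n + 1) ^ 16 :=
    (pow_le_pow_left₀ (by linarith) (by linarith : (n : ℝ) ≤ n + 1) 7).trans
      (pow_le_pow_right₀ (by linarith) (by norm_num))
  have n17 : (n : ℝ) ^ 3 ≤ (n + 1) ^ 16 :=
    (pow_le_pow_left₀ (by linarith) (by linarith : (n : ℝ) ≤ n + 1) 3).trans
      (pow_le_pow_right₀ (by linarith) (by norm_num))
  have n0 : (0 : ℝ) ≤ (n + 1) ^ 16 := by positivity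
  exact
  { nm := nm_pk h m A Q P B k1
    r2 := r2.symm
    eG := by rw [r2]; exact p1
    ek := by
      rw [r2, ← p2]
      rfl
    ey := by
      rw [r2, ← p3]
      rfl
    q := rq
    κE := by
      have hE : 0 < Real.exp (d.u q z) := Real.exp_pos _
      have ha : 0 < (d.wn q).a z := by linarith
      show 16 * kz q d z / Real.exp (d.u q z) =
        (d.wn q).a z ^ 2 * (16 * kz q d z / (Real.exp (d.u q z) * (d.wn q).a z ^ 2))
      field_simp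
    μ1 := by
      show |deriv (d.μc q) (d.l (mid z))| ≤ 1
      linarith
    a1 := a1
    a2 := a2
    Λ1 := by
      show lam d.s₁ d.l (mid z) ≤ 2
      linarith
    K1 := by rw [one_mul]
    C1 := by rw [← hC]; linarith
    C2 := by rw [← hC]; linarith
    C3 := le_rfl
    m1 := by
      have := B.m1 (lam d.s₁ d.l (mid z) ^ 2 / 4) (by linarith) (by linarith)
      show 1 / 64 * Mv q (d.l (mid z)) - CZ n * b - 1 / 64 * (q.σ * q.R⁻¹) ≤
        deriv (deriv (d.μc q)) (d.l (mid z)) * lam d.s₁ d.l (mid z) ^ 2 / 4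
      linarith
    m2 := B.m1 (lam d.s₁ d.l (mid z) ^ 2) (by linarith) (by linarith)
    γ := gam_pk h m A Q P B k1 }

end

/-- **The numbers of the certificate on the package**, for all suitable constants. -/
theorem nmW_ev (hn : 1 ≤ n) : EvC fun q => ∀ d : Pk n, PkOk q d → ∀ z,
    d.ch q .z2a z ≠ 0 ∨ d.ch q .z2b z ≠ 0 → 1 ≤ kz q d z →
      Al q d z ∧ Lm n q ∧ MQ n q ∧ NQ n q ∧ 0 ≤ DD q d z ∧ 8 * (n : ℝ) ^ 6 * DD q d z ≤ 1 ∧ ∃ b,
        NmW (d.wn q) (CZ n) (1 / 64) (16 / 10 ^ 9) (eZ n) (q.σ * q.R⁻¹) (√(d.r2 z))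
          (d₁ n q) (d₂ n q) (h₀ q d z) (h₁ q d z) (DD q d z) 2 (q.σ * q.R⁻¹) (q.σ * q.R⁻¹)
          (Mv q (d.l (mid z))) b (16 * kz q d z) 2 1 (kE q d) z := by
  refine (((al hn).and (lm_ev hn)).and ((mq_ev n).and ((nq_ev n).and (md n)))).mono ?_
  rintro q ⟨⟨a1, m⟩, Q, P, b1⟩ d h z hz k1
  have A := a1 d h z hz
  obtain ⟨b, B⟩ := b1 d h m z A
  obtain ⟨D0, D1⟩ := DD_le h m A Q P
  exact ⟨A, m, Q, P, D0, D1, b, nmW_pk h m A Q P B k1⟩

end Vale.Agent.P088.R2.H942.Pk
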