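import Vale.Agent.P088.R2.H942.Pk.NmW
import Vale.Agent.P088.R2.H942.Zt7
import Vale.Agent.P088.R2.H942.Zt8
import Vale.Agent.P088.R2.H238.Z.KeP
import Vale.Agent.P088.R2.H475.Z.GdP
import Vale.Agent.P088.R2.H606.EP.Fb
import Vale.Agent.P088.R2.H814.B2.Pz5
import Vale.Agent.P088.R2.H850.E.F2
import Vale.Agent.P088.R2.H86.Z.WlP

/-!
# P088, stage 3, zone II: the field `tot` on the package
-/

open Set Filter
open scoped ContDiff Topology Matrix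

noncomputable section

namespace Vale.Agent.P088.R2.H942.Pk

open Vale.Agent.P088.LR Vale.Agent.P088.HY Vale.Agent.P088.R2.H464.Cu Vale.Agent.P088.R2.H31.EP
open Vale.Agent.P088.R2.H606.EP (Lm Z2 Ob Uz cT Zn evZn okMono Bk Bk_ge Bn Bn_ge wn_ok kE_p1 kz_b kz_D
  k_le_r A1)
open Vale.Agent.P088.R2.H983.Fl (Wn Cz un_sx un_sy P1)
open Vale.Agent.P088.R2.H814.An (Fb)
open Vale.Agent.P088.R2.H814.An (U2 Zq' evZq Kt8 Kt8_nn t8P)
open Vale.Agent.P088.R2.H475.Z (frx fry)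
open Vale.Agent.P088.R2.H86.Z (wq Gd Wl)
open Vale.Agent.P088.R2.H960.W (tc dF)
open Vale.Agent.P088.R2.H961.GW (Sl Sm)
open Vale.Agent.P088.R2.H942.Z (T814 KN fb_II tot_II')

variable {n : ℕ} {q : Cst} {d : Pk n} {z w : VV n}

/-- The constant of the fields. -/
def AZ (n : ℕ) (q : Cst) : ℝ := 3 * Cz (Bk n q ^ 39)

/-- The constant of the zero order terms. -/
def KtZ (n : ℕ) (q : Cst) : ℝ := Kt8 n q.ph * (1 + AZ n q)

theorem KtZ_nb (n : ℕ) : NB_ηc (KtZ n) := fun _ => rfl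

theorem fb_mono {E ι : Type*} [NormedAddCommGroup E] [NormedSpace ℝ E] {σ τ : Sl E ι} {U : Set E}
    {c c' : ι → E → ℝ} {e r A M M' : ℝ} {z : E} (h : Fb σ τ U c c' e r A M z) (hM : M ≤ M') :
    Fb σ τ U c c' e r A M' z := by
  have key : A * (e * r ^ 2 + M) ≤ A * (e * r ^ 2 + M') :=
    mul_le_mul_of_nonneg_left (by linarith) h.A0
  exact ⟨h.hc, h.hc', h.A0, h.M0.trans hM, h.a1, h.a2, fun j => (h.ad j).trans key,
    fun j => (h.dc j).trans key, fun j => (h.dc' j).trans key⟩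

theorem s₂_close (h : PkOk q d) (x : V n) (i j : Fin n) :
    |d.s₂ x i j - (1 : Matrix (Fin n) (Fin n) ℝ) i j| ≤ q.ε := by
  have := h.rg.cl₂ i j 0 (by norm_num) x
  rwa [norm_iteratedFDeriv_zero, pow_zero, mul_one, Real.norm_eq_abs] at this

theorem lo_of {S : Matrix (Fin n) (Fin n) ℝ} {ε : ℝ}
    (h : ∀ i j, |S i j - (1 : Matrix (Fin n) (Fin n) ℝ) i j| ≤ ε) (hε : (n : ℝ) * ε ≤ 1 / 2)
    (A : V n) : ∑ i, A i ^ 2 ≤ 2 * ∑ i, ∑ j, S i j * A i * A j := by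
  have h1 := abs_le.1 (bf_close h A)
  have h2 : bf S A A = ∑ i, ∑ j, S i j * A i * A j := rfl
  have h3 : 0 ≤ ∑ i, A i ^ 2 := Finset.sum_nonneg fun _ _ => sq_nonneg _
  have h4 : (n : ℝ) * ε * ∑ i, A i ^ 2 ≤ 1 / 2 * ∑ i, A i ^ 2 := mul_le_mul_of_nonneg_right hε h3
  rw [← h2]
  linarith

theorem nε_le (m : Lm n q) : (n : ℝ) * q.ε ≤ 1 / 2 := by
  have h1 := m.εT
  have h2 := H606.EP.cT_ge n
  have h3 := m.ε0
  have h4 : 0 ≤ (n : ℝ) * q.ε := by positivity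
  nlinarith

theorem AZ_nn (h : 0 ≤ Bk n q) : 0 ≤ AZ n q := by
  unfold AZ Cz
  positivity

section
variable {X : ℝ} (h : PkOk q d) (m : Zn n (1 / 64) X q) (A : H606.EP.Al (1 / 64) X q d z)
include h m A

/-- **`T814` on the package.** -/
theorem t814_pk (zq : Zq' n q) {V : Set (VV n)} (hV : IsOpen V) (hs : V ⊆ U2 q d) (hz : z ∈ V)
    (sc : ∀ i, Sm V ((d.wn q).c₁ (kE q d) i)) (sc' : ∀ i, Sm V ((d.wn q).c₂ (kE q d) i)) {k : ℝ}
    (hk : kz q d z ≤ k) :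
    T814 d.sx d.sy 0 0 (d.W q) ((d.wn q).c₁ (kE q d)) ((d.wn q).c₂ (kE q d)) (frx d.s₁) (fry d.s₂)
      (Kt8 n q.ph) (AZ n q) (d.E q z) (d.N q z) (√(d.r2 z)) k z := by
  have c0 : (0 : ℝ) < 1 / 10 ^ 9 := by norm_num
  have c1 : (1 : ℝ) / 10 ^ 9 ≤ 1 / 3 := by norm_num
  have ha : (1 : ℝ) / 64 ≤ 1 / 64 := le_rfl
  obtain ⟨b1, b2⟩ := Bk_ge m.nr
  obtain ⟨b3, -⟩ := Bn_ge n
  have bk : 2 ≤ Bk n q := by linarith
  have hB : Bk n q ≤ Bk n q ^ 39 := le_self_pow₀ (by linarith) (by norm_num)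
  have W := okMono (wn_ok h m ha A) (b1.trans hB)
  have B2 := W.B2
  have p1 := ((kE_p1 (un_sx d.s₁) c0 h m ha A fun i => (kz_D c0 h m A i).1).base bk
    le_rfl).up B2 (n := 16) (by norm_num)
  have p2 := ((kE_p1 (un_sy d.s₂) c0 h m ha A fun i => (kz_D c0 h m A i).2).base bk
    le_rfl).up B2 (n := 16) (by norm_num)
  have F := fb_II (s₂ := d.s₂) (kE := kE q d) (k := kz q d z) (U := V) W sc sc' p1 p2
    (k_le_r c0 c1 h m ha A)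
  exact t8P zq h hV hs hz (fb_mono F (by
    show d.N q z + kz q d z ≤ d.N q z + k
    linarith))

end

/-- The number which `k` must exceed. -/
def XZ (n : ℕ) (L₀ η : Cst → ℝ) (q : Cst) : ℝ :=
  1 + 10800 * (|L₀ q| + Kt8 n q.ph) + 5 * KtZ n q * (1024 * (n : ℝ) ^ 2) / |η q|

theorem XZ_nb (n : ℕ) {L₀ η : Cst → ℝ} (h1 : NB_CB L₀) (h2 : NB_CB η) : NB_CB (XZ n L₀ η) := by
  intro q
  have e1 := h1 q
  have e2 := h2 q
  show 1 + 10800 * (|L₀ q.b_CB| + Kt8 n q.ph) + 5 * KtZ n q * (1024 * (n : ℝ) ^ 2) / |η q.b_CB| = _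
  rw [e1, e2]
  rfl

/-- **Zone II: the field `tot` on the package** (helper870's `PtII`, `PtII2`), for `kz ≤ k ≤ 5/4 kz`. -/
theorem tot_ev (hn : 1 ≤ n) (K₁ L₀ η : Cst → ℝ) (hL : NB_CB L₀) (hη : NB_CB η) :
    EvC fun q => KtZ n q ≤ K₁ q → 0 ≤ L₀ q → 0 < η q → ∀ d : Pk n, PkOk q d → ∀ z, Z2 q d z →
      ∀ V : Set (VV n), IsOpen V → V ⊆ U2 q d → z ∈ V →
      (∀ i, Sm V ((d.wn q).c₁ (kE q d) i)) → (∀ i, Sm V ((d.wn q).c₂ (kE q d) i)) →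
      ∀ k g ee : ℝ, kz q d z ≤ k → k ≤ 5 / 4 * kz q d z → 1 ≤ g * d.r2 z → g * d.r2 z ≤ 4 →
      d.E q z ^ 2 ≤ ee → ∀ (Y Y' : Fin n → ℝ) (x y : ℝ),
      4 * (k * ((∑ i, Y i ^ 2) + ∑ i, Y' i ^ 2)) +
        L₀ q * (g * wq (frx d.s₁) (fry d.s₂) z Y Y') - K₁ q * (ee * (x + y) ^ 2) -
        η q * (k * d.sx.F (d.W q) z * x ^ 2 + k * d.sy.F (d.W q) z * y ^ 2) ≤
        8 * (H644.Ch.TH d.sx d.sy (d.W q) z Y Y' + tc d.sx ((d.wn q).c₁ (kE q d)) (d.W q) z Y +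
          tc d.sy ((d.wn q).c₂ (kE q d)) (d.W q) z Y') +
        H747.S.qf d.sx d.sy 0 0 (d.W q) z Y Y' x y +
        16 * (dF d.sx ((d.wn q).c₁ (kE q d)) (d.W q) z * x ^ 2 +
          dF d.sy ((d.wn q).c₂ (kE q d)) (d.W q) z * y ^ 2) := by
  have b1 := nmW_ev hn
  have b2 := H238.Z.ke hn (XZ n L₀ η) (XZ_nb n hL hη)
  have b3 := evZn hn (a := 1 / 64) (by norm_num) (fun _ => 1) (fun _ => rfl) fun _ => le_rfl
  have b4 := evZq hn
  have b5 := H850.E.f2A_ev hn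
  refine ((b1.and b2).and ((b3.and b4).and b5)).mono ?_
  rintro q ⟨⟨b1, b2⟩, ⟨m, zq⟩, b5⟩ hK hL0 hη0 d h z hz V hV hs hzV sc sc' k g ee k1 k2 g1 g2 he Y Y' x y
  obtain ⟨c1, c2⟩ := b2 d h z hz
  obtain ⟨f1, f2⟩ := b5 d h z hz
  have A6 : H606.EP.Al (1 / 64) 1 q d z := H606.EP.al h m hz
  have A8 := Kt8_nn n q.ph
  obtain ⟨bk1, -⟩ := Bk_ge m.nr
  obtain ⟨bk2, -⟩ := Bn_ge n
  have AZ0 : 0 ≤ AZ n q := AZ_nn (by linarith)
  have KZ0 : 0 ≤ KtZ n q := mul_nonneg A8 (by linarith)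
  have X1 : 1 ≤ XZ n L₀ η q := by
    have h1 : 0 ≤ 5 * KtZ n q * (1024 * (n : ℝ) ^ 2) / |η q| := by positivity
    have h2 := abs_nonneg (L₀ q)
    unfold XZ
    linarith
  have c3 : 0 ≤ d.N q z ^ 2 / d.m q z ^ 2 := by positivity
  have c4 : XZ n L₀ η q ≤ kz q d z := by
    have : XZ n L₀ η q * 1 ≤ XZ n L₀ η q * (1 + d.N q z ^ 2 / d.m q z ^ 2) :=
      mul_le_mul_of_nonneg_left (by linarith) (by linarith)
    linarith
  obtain ⟨A, ml, Q, P, D0, D1, b, H⟩ := b1 d h z hz (X1.trans c4)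
  obtain ⟨k0, k3⟩ := kz_b (c₁ := 1 / 10 ^ 9) (by norm_num) h m A6
  have k3' : kz q d z ≤ 3 * (1 / 10 ^ 9) * d.m q z := k3
  obtain ⟨r0, r2, rc, rq, rN⟩ := r_bd h ml A
  have hm : d.E q z * √(d.r2 z) ^ 2 = d.m q z := by rw [r2]; rfl
  have hE : 0 < d.E q z := Real.exp_pos _
  have hN0 : 0 ≤ d.N q z := by
    have := A.N0
    have := ml.M1
    linarith
  have hm0 : 0 < d.m q z := by rw [← hm]; positivity
  obtain ⟨Ψ, F⟩ := H475.Z.frP h ml A.L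
  have G := H475.Z.gdP h ml A.L (d.wn q) rfl rfl rfl
  have Wp := H86.Z.wl_pk h ml A.L
  have T := t814_pk h m A6 zq hV hs hzV sc sc' k1
  have kn : KN (XZ n L₀ η q) (1024 * (n : ℝ) ^ 2) (d.E q z) (d.N q z) (√(d.r2 z)) k
      (d.sx.F (d.W q) z) (d.sy.F (d.W q) z) :=
    { X1 := X1
      E0 := hE
      N0 := hN0
      r0 := r0
      ke := by rw [hm]; exact c1.trans k1
      km := by rw [hm]; linarith
      A0 := by
        have : (0 : ℝ) < n := by exact_mod_cast hn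
        positivity
      f₁ := by
        refine le_trans (le_of_eq ?_) f1
        rw [← hm]; ring
      f₂ := by
        refine le_trans (le_of_eq ?_) f2
        rw [← hm]; ring }
  have gr : g * √(d.r2 z) ^ 2 = g * d.r2 z := by rw [r2]
  have g0 : 0 ≤ g := by
    by_contra hg
    have := mul_neg_of_neg_of_pos (not_le.1 hg) A.r0
    linarith
  have x1 : 10800 * (L₀ q + Kt8 n q.ph) ≤ XZ n L₀ η q := by
    have h1 : 0 ≤ 5 * KtZ n q * (1024 * (n : ℝ) ^ 2) / |η q| := by positivity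
    have h2 := le_abs_self (L₀ q)
    unfold XZ
    linarith
  have x2 : 5 * (Kt8 n q.ph * (1 + AZ n q)) * (1024 * (n : ℝ) ^ 2) ≤ η q * XZ n L₀ η q := by
    have h1 : η q * (5 * KtZ n q * (1024 * (n : ℝ) ^ 2) / |η q|) =
        5 * (Kt8 n q.ph * (1 + AZ n q)) * (1024 * (n : ℝ) ^ 2) := by
      rw [abs_of_pos hη0]
      unfold KtZ
      field_simp
    have h2 : 0 ≤ η q * (1 + 10800 * (|L₀ q| + Kt8 n q.ph)) := by positivity
    rw [← h1]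
    unfold XZ
    rw [mul_add]
    linarith
  have main := tot_II' (p := frx d.s₁) (q := fry d.s₂) (v₁ := 0) (v₂ := 0) (s₂ := d.s₂) (g := g)
    (k := k) (L₀ := L₀ q) (Km := Kt8 n q.ph) (A := AZ n q) (η := η q) (X := XZ n L₀ η q)
    (A₀ := 1024 * (n : ℝ) ^ 2) (ee := ee) G Wp F rfl D1 H (fun _ _ => rfl) (fun _ _ => rfl)
    (lo_of (h.s₁_close z.1) (nε_le ml)) (lo_of (s₂_close h z.2) (nε_le ml)) (by linarith) g0
    (by rw [gr]; exact g1) (by rw [gr]; exact g2) he T kn A8 AZ0 hL0 hη0 x1 x2 Y Y' x y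
  have ee0 : 0 ≤ ee * (x + y) ^ 2 := mul_nonneg (le_trans (by positivity) he) (sq_nonneg _)
  have fin : KtZ n q * (ee * (x + y) ^ 2) ≤ K₁ q * (ee * (x + y) ^ 2) :=
    mul_le_mul_of_nonneg_right hK ee0
  refine le_trans ?_ main
  have e : Kt8 n q.ph * (1 + AZ n q) = KtZ n q := rfl
  rw [e]
  show _ ≤ 4 * (k * ((∑ i, Y i ^ 2) + ∑ i, Y' i ^ 2)) +
    L₀ q * (g * wq (frx d.s₁) (fry d.s₂) z Y Y') - KtZ n q * (ee * (x + y) ^ 2) -
    η q * (k * d.sx.F (d.W q) z * x ^ 2 + k * d.sy.F (d.W q) z * y ^ 2)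
  linarith

end Vale.Agent.P088.R2.H942.Pk
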